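import Vale.Agent.P188.H615.NatI

/-!
# P188, route A, block hinput: natural boxes in exponential coordinates of `E`
-/

set_option linter.all false

open MeasureTheory Set Filter Topology
open scoped Pointwise

namespace Vale.Agent.P188.H235

open Vale.Agent.P188.H796 Vale.Agent.P188.H131 Vale.Agent.P188.Z1 Vale.Agent.P188.H615

variable {Γ : Type} [Group Γ] {k : ℕ} {η : Γ →* Multiplicative (Fin k → ℤ)} {d n : ℕ}
  {D : MB η.ker d n} {M : RModel D.S Γ D.R.V k} {B : M.NatBox}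

theorem chart_pre (h : NatHyp M) (hB : B.Bx = NBx D M.X) {m : ℕ} (T : (Fin m → ℝ) →ₗ[ℝ] D.R.V)
    (R : M.ι → ℝ) : {x | M.ex (T x) ∈ B.Bx R} = T ⁻¹' (nb (Gb M.X R)) := by
  ext x
  show M.ex (T x) ∈ B.Bx R ↔ T x ∈ nb (Gb M.X R)
  rw [hB]
  constructor
  · rintro ⟨v, hv, hvx⟩
    rw [← h.hex] at hvx
    rwa [← M.ex_inj hvx]
  · intro hx
    exact ⟨T x, hx, (h.hex _).symm⟩

theorem chart_cvx (h : NatHyp M) (hB : B.Bx = NBx D M.X) {m : ℕ} (T : (Fin m → ℝ) →ₗ[ℝ] D.R.V)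
    (R : M.ι → ℝ) : Convex ℝ {x | M.ex (T x) ∈ B.Bx R} := by
  rw [chart_pre h hB]
  exact (csy_nb (csy_Gb M.X R)).conv.linear_preimage T

theorem chart_cpt (h : NatHyp M) (hB : B.Bx = NBx D M.X) {m : ℕ} (T : (Fin m → ℝ) →ₗ[ℝ] D.R.V)
    (hT : Function.Injective T) (R : M.ι → ℝ) : IsCompact {x | M.ex (T x) ∈ B.Bx R} := by
  rw [chart_pre h hB]
  exact (LinearMap.isClosedEmbedding_of_injective (LinearMap.ker_eq_bot.2 hT)).isCompact_preimage
    (isCompact_nbGb M.X R)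

theorem nb_nhds (h : NatHyp M) {R : M.ι → ℝ} (hR : ∀ i, 0 < R i) :
    nb (Gb M.X R) ∈ 𝓝 (0 : D.R.V) := by
  have hc := csy_nb (csy_Gb M.X R)
  obtain ⟨x, hx⟩ := interior_nb M.X hR h.gen
  have h1 := hc.neg x (interior_subset hx)
  have h2 := hc.conv.combo_interior_self_mem_interior hx h1 (a := 1 / 2) (b := 1 / 2)
    (by norm_num) (by norm_num) (by norm_num)
  rw [smul_neg, add_neg_cancel] at h2
  exact mem_interior_iff_mem_nhds.1 h2

theorem chart_int (h : NatHyp M) (hB : B.Bx = NBx D M.X) {m : ℕ} (T : (Fin m → ℝ) →ₗ[ℝ] D.R.V)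
    {R : M.ι → ℝ} (hR : ∀ i, 0 < R i) : {x | M.ex (T x) ∈ B.Bx R} ∈ 𝓝 (0 : Fin m → ℝ) := by
  rw [chart_pre h hB]
  have hc : Continuous T := T.continuous_of_finiteDimensional
  refine hc.continuousAt.preimage_mem_nhds ?_
  rw [map_zero]
  exact nb_nhds h hR

end Vale.Agent.P188.H235
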