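import Vale.Agent.P188.H235.Fub
import Vale.Agent.P188.Z1.DBox3

/-!
# P188, route A, block hinput: the chart of `E`, natural boxes and their `E`-parts
-/

set_option linter.all false

open MeasureTheory Set Filter Topology
open scoped ENNReal
open Vale.Agent.P188.H530 (hgt)
open Vale.Agent.P188.Z1

namespace Vale.Agent.P188.H235

variable {S : Type} [Group S] [MeasurableSpace S] {Γ : Type} [Group Γ]
  {V : Type} [AddCommGroup V] [Module ℝ V] {k : ℕ} {M : RModel S Γ V k}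

/-- Exponential coordinates of the exponential radical. -/
structure EChart (M : RModel S Γ V k) (B : M.NatBox) (d : ℕ) where
  P : (Fin d → ℝ) → S
  meas : Measurable P
  mem : ∀ x, P x ∈ M.E
  neg : ∀ x, P (-x) = (P x)⁻¹
  right : ∀ g ∈ M.E, ∃ T : (Fin d → ℝ) → (Fin d → ℝ), MeasurePreserving T volume volume ∧
    ∀ x, P (T x) = P x * g
  add : ∀ x y, (P x * P y)⁻¹ * P (x + y) ∈ (⁅M.E, M.E⁆ : Subgroup S)
  cvx : ∀ R : M.ι → ℝ, (∀ i, 0 < R i) → Convex ℝ {x | P x ∈ B.Bx R}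
  cpt : ∀ R : M.ι → ℝ, (∀ i, 0 < R i) → IsCompact {x | P x ∈ B.Bx R}
  int : ∀ R : M.ι → ℝ, (∀ i, 0 < R i) → {x | P x ∈ B.Bx R} ∈ 𝓝 (0 : Fin d → ℝ)
  cont : ∀ C ρ : ℝ, 0 < ρ → ∃ δ : ℝ, 0 < δ ∧ ∀ x x', ‖x‖ ≤ C → ‖x' - x‖ ≤ δ →
    ∃ z : V, M.nm z ≤ ρ ∧ P x' = P x * M.ex z

namespace EChart

variable {B : M.NatBox} {d : ℕ} (c : EChart M B d)

/-- the measure of `E`, as a measure on `S` -/
noncomputable def ν : Measure S := (volume : Measure (Fin d → ℝ)).map c.P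

instance : SFinite c.ν := by unfold ν; infer_instance

theorem ν_apply {A : Set S} (hA : MeasurableSet A) : c.ν A = volume {x | c.P x ∈ A} := by
  unfold ν
  rw [Measure.map_apply c.meas hA]
  rfl

theorem emeas : EMeas M.E c.ν := by
  haveI := M.mm
  haveI := M.mi
  have hr : ∀ g ∈ M.E, MeasurePreserving (fun x => x * g) c.ν c.ν := by
    intro g hg
    obtain ⟨T, hT, hTP⟩ := c.right g hg
    refine ⟨measurable_mul_const g, ?_⟩
    have h1 : Measurable (fun x : S => x * g) := measurable_mul_const g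
    unfold ν
    rw [Measure.map_map h1 c.meas]
    have h2 : (fun x : S => x * g) ∘ c.P = c.P ∘ T := by
      funext x; exact (hTP x).symm
    rw [h2, ← Measure.map_map c.meas hT.measurable, hT.map_eq]
  refine ⟨inferInstance, hr, ?_, ?_⟩
  · intro g hg
    obtain ⟨T, hT, hTP⟩ := c.right g⁻¹ (M.E.inv_mem hg)
    have h1 : Measurable (fun x : S => g * x) := measurable_const_mul g
    refine ⟨h1, ?_⟩
    have hn : MeasurePreserving (fun x : Fin d → ℝ => -x) volume volume :=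
      Measure.measurePreserving_neg volume
    have hT' : MeasurePreserving ((fun x : Fin d → ℝ => -x) ∘ T ∘ fun x => -x) volume volume :=
      hn.comp (hT.comp hn)
    unfold ν
    rw [Measure.map_map h1 c.meas]
    have h2 : (fun x : S => g * x) ∘ c.P = c.P ∘ ((fun x : Fin d → ℝ => -x) ∘ T ∘ fun x => -x) := by
      funext x
      show g * c.P x = c.P (-(T (-x)))
      rw [c.neg, hTP, c.neg]
      group
    rw [h2, ← Measure.map_map c.meas hT'.measurable, hT'.map_eq]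
  · intro A hA h0
    rw [c.ν_apply hA] at h0
    obtain ⟨x, hx⟩ := nonempty_of_measure_ne_zero h0
    exact ⟨c.P x, c.mem x, hx⟩

theorem ν_pos {R : M.ι → ℝ} (hR : ∀ i, 0 < R i) : c.ν (B.Bx R) ≠ 0 := by
  rw [c.ν_apply (B.meas R)]
  have h := c.int R hR
  exact (Measure.measure_pos_of_mem_nhds volume h).ne'

theorem ν_fin {R : M.ι → ℝ} (hR : ∀ i, 0 < R i) : c.ν (B.Bx R) ≠ ⊤ := by
  rw [c.ν_apply (B.meas R)]
  exact (c.cpt R hR).measure_lt_top.ne

end EChart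

/-! ### products in boxes -/

theorem bx_mono (B : M.NatBox) {R R' : M.ι → ℝ} (hR : ∀ i, 0 ≤ R i) (h : ∀ i, R i ≤ R' i) {x : S}
    (hx : x ∈ B.Bx R) : x ∈ B.Bx R' := B.mono R R' hR h hx

theorem bx_mul (B : M.NatBox) {R : M.ι → ℝ} (hR : ∀ i, 0 ≤ R i) {a b e : ℝ} (ha : 0 ≤ a)
    (hb : 0 ≤ b) (h1 : B.C * a ≤ e) (h2 : B.C * b ≤ e) {x y : S}
    (hx : x ∈ B.Bx fun i => a * R i) (hy : y ∈ B.Bx fun i => b * R i) :
    x * y ∈ B.Bx fun i => e * R i := by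
  have hC := B.one_le
  have hm : 0 ≤ max a b := le_max_of_le_left ha
  have h3 := B.mul (fun i => max a b * R i) (fun i => mul_nonneg hm (hR i)) x
    (bx_mono B (fun i => mul_nonneg ha (hR i))
      (fun i => mul_le_mul_of_nonneg_right (le_max_left _ _) (hR i)) hx) y
    (bx_mono B (fun i => mul_nonneg hb (hR i))
      (fun i => mul_le_mul_of_nonneg_right (le_max_right _ _) (hR i)) hy)
  refine bx_mono B (fun i => mul_nonneg (by linarith) (mul_nonneg hm (hR i))) (fun i => ?_) h3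
  rw [← mul_assoc]
  refine mul_le_mul_of_nonneg_right ?_ (hR i)
  rcases le_total a b with h | h
  · rw [max_eq_right h]; exact h2
  · rw [max_eq_left h]; exact h1

theorem bx_inv (B : M.NatBox) {R : M.ι → ℝ} {x : S} (hx : x ∈ B.Bx R) : x⁻¹ ∈ B.Bx R :=
  B.inv R x hx

/-- `U U⁻¹` -/
theorem bx_div (B : M.NatBox) {R : M.ι → ℝ} (hR : ∀ i, 0 ≤ R i) {a : ℝ} (ha : 0 ≤ a) {x y : S}
    (hx : x ∈ B.Bx fun i => a * R i) (hy : y ∈ B.Bx fun i => a * R i) :
    x * y⁻¹ ∈ B.Bx fun i => (B.C * a) * R i :=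
  bx_mul B hR ha ha le_rfl le_rfl hx (bx_inv B hy)

/-! ### doubling -/

/-- iterated doubling of `μ` -/
theorem mu_poly (B : M.NatBox) : ∃ (C : ℝ) (D : ℕ), 1 ≤ C ∧ ∀ x : ℝ, 1 ≤ x → ∀ R : M.ι → ℝ,
    (∀ i, 0 < R i) → M.μ (B.Bx fun i => x * R i) ≤ ENNReal.ofReal (C * x ^ D) * M.μ (B.Bx R) := by
  obtain ⟨C', hC'⟩ := B.dbl 2 (by norm_num)
  set c2 : ℝ := max C' 1 with hc2
  have hc21 : 1 ≤ c2 := le_max_right _ _
  obtain ⟨D, hD⟩ : ∃ D : ℕ, c2 ≤ 2 ^ D := by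
    obtain ⟨D, hD⟩ := pow_unbounded_of_one_lt c2 (by norm_num : (1 : ℝ) < 2)
    exact ⟨D, hD.le⟩
  have hit : ∀ j : ℕ, ∀ R : M.ι → ℝ, (∀ i, 0 < R i) →
      M.μ (B.Bx fun i => 2 ^ j * R i) ≤ ENNReal.ofReal (c2 ^ j) * M.μ (B.Bx R) := by
    intro j
    induction j with
    | zero => intro R hR; simp
    | succ j ih =>
      intro R hR
      have h1 := hC' (fun i => 2 ^ j * R i) (fun i => by have := hR i; positivity)
      have e : (fun i => (2 : ℝ) ^ (j + 1) * R i) = fun i => 2 * (2 ^ j * R i) := by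
        funext i; ring
      rw [e]
      refine h1.trans ?_
      calc ENNReal.ofReal C' * M.μ (B.Bx fun i => 2 ^ j * R i)
          ≤ ENNReal.ofReal c2 * (ENNReal.ofReal (c2 ^ j) * M.μ (B.Bx R)) :=
            mul_le_mul' (ENNReal.ofReal_le_ofReal (le_max_left _ _)) (ih R hR)
        _ = ENNReal.ofReal (c2 ^ (j + 1)) * M.μ (B.Bx R) := by
            rw [← mul_assoc, ← ENNReal.ofReal_mul (by linarith), pow_succ, mul_comm c2]
  refine ⟨c2, D, hc21, fun x hx R hR => ?_⟩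
  obtain ⟨j, hj1, hj2⟩ : ∃ j : ℕ, (2 : ℝ) ^ j ≤ x ∧ x < 2 ^ (j + 1) := by
    obtain ⟨j, hj⟩ := exists_nat_pow_near hx (by norm_num : (1 : ℝ) < 2)
    exact ⟨j, hj⟩
  have h1 : M.μ (B.Bx fun i => x * R i) ≤ M.μ (B.Bx fun i => 2 ^ (j + 1) * R i) :=
    measure_mono fun y hy => bx_mono B (fun i => by have := hR i; positivity)
      (fun i => mul_le_mul_of_nonneg_right hj2.le (hR i).le) hy
  refine h1.trans ((hit (j + 1) R hR).trans (mul_le_mul' (ENNReal.ofReal_le_ofReal ?_) le_rfl))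
  calc c2 ^ (j + 1) = c2 * c2 ^ j := by ring
    _ ≤ c2 * (2 ^ D) ^ j := by gcongr
    _ = c2 * (2 ^ j) ^ D := by rw [← pow_mul, ← pow_mul, mul_comm D j]
    _ ≤ c2 * x ^ D := by gcongr

namespace EChart

variable {B : M.NatBox} {d : ℕ} (c : EChart M B d)

/-- doubling of `ν` -/
theorem nu_dbl (Λ : ℝ) (hΛ : 1 ≤ Λ) : ∃ m : ℕ, 1 ≤ m ∧ ∀ R : M.ι → ℝ, (∀ i, 0 < R i) →
    c.ν (B.Bx fun i => Λ * R i) ≤ m * c.ν (B.Bx R) := by
  haveI := M.mm
  haveI := M.mi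
  have hC := B.one_le
  have hC0 : 0 < B.C := by linarith
  obtain ⟨C', hC'⟩ := B.dbl (B.C * Λ * B.C) (by nlinarith [mul_le_mul hC hΛ zero_le_one hC0.le])
  refine ⟨⌈C'⌉₊ + 1, by omega, fun R hR => ?_⟩
  have hq : ∀ i, 0 < B.C⁻¹ * R i := fun i => by have := hR i; positivity
  refine EMeas.dbl (μ := M.μ) (Q := B.Bx fun i => B.C⁻¹ * R i) (Q' := B.Bx R)
    (W := B.Bx fun i => (B.C * Λ) * R i) c.emeas M.mpl
    (B.meas _) (B.meas _) (B.meas _) (B.pos _ hq) (B.fin _) ?_ ?_ ?_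
  · intro n hn q hq
    refine bx_mul B (fun i => (hR i).le) (by linarith) (by positivity) le_rfl ?_ hn hq
    rw [mul_inv_cancel₀ hC0.ne']
    nlinarith [mul_le_mul hC hΛ zero_le_one hC0.le]
  · intro p hp q hq
    have := bx_div B (fun i => (hR i).le) (by positivity) hp hq
    simpa [mul_inv_cancel₀ hC0.ne'] using this
  · have h1 := hC' (fun i => B.C⁻¹ * R i) hq
    have e : (fun i => B.C * Λ * B.C * (B.C⁻¹ * R i)) = fun i => (B.C * Λ) * R i := by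
      funext i
      field_simp
    rw [e] at h1
    refine h1.trans (mul_le_mul' ?_ le_rfl)
    have h2 : C' ≤ ((⌈C'⌉₊ + 1 : ℕ) : ℝ) := by
      have := Nat.le_ceil C'
      push_cast; linarith
    calc ENNReal.ofReal C' ≤ ENNReal.ofReal ((⌈C'⌉₊ + 1 : ℕ) : ℝ) := ENNReal.ofReal_le_ofReal h2
      _ = ((⌈C'⌉₊ + 1 : ℕ) : ℝ≥0∞) := ENNReal.ofReal_natCast _

/-- the section bound -/
theorem sup_le {R : M.ι → ℝ} (hR : ∀ i, 0 ≤ R i) (x : S) :
    c.ν {n | n⁻¹ * x ∈ B.Bx R} ≤ c.ν (B.Bx fun i => B.C * R i) := by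
  haveI := M.mm
  haveI := M.mi
  refine c.emeas.sup (B.meas _) (B.meas _) (fun u hu v hv => ?_) x
  exact B.mul R hR u hu _ (B.inv R v hv)

end EChart

end Vale.Agent.P188.H235
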