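import Mathlib.MeasureTheory.Group.Measure
import Mathlib.MeasureTheory.Integral.Average
import Mathlib.MeasureTheory.Measure.Prod
import Mathlib.Tactic

/-!
# P188, route A, block hinput: a measure on a subgroup against a measure on the group
-/

set_option linter.all false

namespace Vale.Agent.P188.H235

open MeasureTheory Set
open scoped ENNReal

/-- `ν` is carried by `E` and is invariant under `E` on both sides. -/
structure EMeas {S : Type} [Group S] [MeasurableSpace S] (E : Subgroup S) (ν : Measure S) :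
    Prop where
  sfin : SFinite ν
  mpr : ∀ g ∈ E, MeasurePreserving (fun x => x * g) ν ν
  mpl : ∀ g ∈ E, MeasurePreserving (fun x => g * x) ν ν
  supp : ∀ A : Set S, MeasurableSet A → ν A ≠ 0 → ∃ n ∈ E, n ∈ A

variable {S : Type} [Group S] [MeasurableSpace S] [MeasurableMul₂ S] [MeasurableInv S]
  {E : Subgroup S} {ν μ : Measure S}

theorem EMeas.sup (h : EMeas E ν) {U U' : Set S} (hU : MeasurableSet U) (hU' : MeasurableSet U')
    (hUU : ∀ u ∈ U, ∀ v ∈ U, u * v⁻¹ ∈ U') (x : S) : ν {n | n⁻¹ * x ∈ U} ≤ ν U' := by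
  have hm : MeasurableSet {n | n⁻¹ * x ∈ U} :=
    (measurable_inv.mul_const x) hU
  by_cases h0 : ν {n | n⁻¹ * x ∈ U} = 0
  · rw [h0]; exact zero_le
  obtain ⟨n₀, hn₀, hn₀U⟩ := h.supp _ hm h0
  have hsub : {n | n⁻¹ * x ∈ U} ⊆ (fun y => n₀⁻¹ * y) ⁻¹' U' := by
    intro n hn
    have := hUU _ hn₀U _ hn
    have e : n₀⁻¹ * x * (n⁻¹ * x)⁻¹ = n₀⁻¹ * n := by group
    rw [e] at this
    exact this
  refine (measure_mono hsub).trans ?_
  rw [(h.mpl _ (E.inv_mem hn₀)).measure_preimage hU'.nullMeasurableSet]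

/-- **Fubini.** -/
theorem EMeas.fub [SFinite μ] (h : EMeas E ν)
    (hμ : ∀ w : S, MeasurePreserving (fun x => w * x) μ μ) {U A : Set S}
    (hU : MeasurableSet U) (hA : MeasurableSet A) {H : ℝ≥0∞}
    (hH : ∀ x, ν {n | n⁻¹ * x ∈ U} ≤ H) :
    ∫⁻ u in U, ν {n | n * u ∈ A} ∂μ ≤ H * μ A := by
  haveI := h.sfin
  -- first set
  set P : Set (S × S) := {p | p.1 ∈ U ∧ p.2 * p.1 ∈ A} with hP
  have hPm : MeasurableSet P :=
    (measurable_fst hU).inter ((measurable_snd.mul measurable_fst) hA)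
  set P' : Set (S × S) := {p | p.2⁻¹ * p.1 ∈ U ∧ p.1 ∈ A} with hP'
  have hPm' : MeasurableSet P' :=
    ((measurable_snd.inv.mul measurable_fst) hU).inter (measurable_fst hA)
  have e1 : ∫⁻ u in U, ν {n | n * u ∈ A} ∂μ = (μ.prod ν) P := by
    rw [Measure.prod_apply hPm, ← lintegral_indicator hU]
    refine lintegral_congr fun u => ?_
    by_cases hu : u ∈ U
    · rw [Set.indicator_of_mem hu]
      congr 1
      ext n
      simp [hP, hu]
    · rw [Set.indicator_of_notMem hu]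
      have : Prod.mk u ⁻¹' P = ∅ := by
        ext n
        simp [hP, hu]
      rw [this, measure_empty]
  have e2 : (μ.prod ν) P = (μ.prod ν) P' := by
    rw [Measure.prod_apply_symm hPm, Measure.prod_apply_symm hPm']
    refine lintegral_congr fun n => ?_
    have hm : MeasurableSet ((fun x => (x, n)) ⁻¹' P') := measurable_prodMk_right hPm'
    rw [← (hμ n).measure_preimage hm.nullMeasurableSet]
    congr 1
    ext u
    simp only [hP, hP', mem_preimage, mem_setOf_eq, inv_mul_cancel_left]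
  rw [e1, e2, Measure.prod_apply hPm']
  calc ∫⁻ x, ν (Prod.mk x ⁻¹' P') ∂μ ≤ ∫⁻ x, A.indicator (fun _ => H) x ∂μ := by
        refine lintegral_mono fun x => ?_
        by_cases hx : x ∈ A
        · rw [Set.indicator_of_mem hx]
          refine le_trans (measure_mono fun n hn => ?_) (hH x)
          exact hn.1
        · rw [Set.indicator_of_notMem hx]
          have : Prod.mk x ⁻¹' P' = ∅ := by
            ext n
            simp [hP', hx]
          rw [this, measure_empty]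
    _ = H * μ A := by rw [lintegral_indicator hA, lintegral_const, Measure.restrict_apply_univ]

/-- Choice of a good translate. -/
theorem EMeas.pick [SFinite μ] (h : EMeas E ν)
    (hμ : ∀ w : S, MeasurePreserving (fun x => w * x) μ μ) {U A : Set S}
    (hU : MeasurableSet U) (hA : MeasurableSet A) {H : ℝ≥0∞}
    (hH : ∀ x, ν {n | n⁻¹ * x ∈ U} ≤ H) (h0 : μ U ≠ 0) (h1 : μ U ≠ ⊤) :
    ∃ u ∈ U, ν {n | n * u ∈ A} * μ U ≤ H * μ A := by
  haveI := h.sfin
  have hm : Measurable fun u => ν {n | n * u ∈ A} := by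
    have hs : MeasurableSet {p : S × S | p.2 * p.1 ∈ A} :=
      (measurable_snd.mul measurable_fst) hA
    exact measurable_measure_prodMk_left hs
  obtain ⟨u, hu, hle⟩ := exists_le_setLAverage (μ := μ) (s := U)
    (f := fun u => ν {n | n * u ∈ A}) h0 h1 hm.aemeasurable
  refine ⟨u, hu, ?_⟩
  have h2 := h.fub hμ hU hA hH
  rw [setLAverage_eq] at hle
  calc ν {n | n * u ∈ A} * μ U ≤ ((∫⁻ u in U, ν {n | n * u ∈ A} ∂μ) / μ U) * μ U := by gcongr
    _ = ∫⁻ u in U, ν {n | n * u ∈ A} ∂μ := ENNReal.div_mul_cancel h0 h1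
    _ ≤ H * μ A := h2

/-- Lower bound form. -/
theorem EMeas.low [SFinite μ] (h : EMeas E ν)
    (hμ : ∀ w : S, MeasurePreserving (fun x => w * x) μ μ) {U A A₀ : Set S}
    (hU : MeasurableSet U) (hA : MeasurableSet A) {H : ℝ≥0∞}
    (hH : ∀ x, ν {n | n⁻¹ * x ∈ U} ≤ H) (hl : ∀ u ∈ U, ν A₀ ≤ ν {n | n * u ∈ A}) :
    ν A₀ * μ U ≤ H * μ A := by
  refine le_trans ?_ (h.fub hμ hU hA hH)
  calc ν A₀ * μ U = ∫⁻ u in U, ν A₀ ∂μ := by
        rw [lintegral_const, Measure.restrict_apply_univ]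
    _ ≤ _ := setLIntegral_mono' hU hl

omit [MeasurableMul₂ S] [MeasurableInv S] in
/-- **Covering by a maximal disjoint family.** -/
theorem cover {μ : Measure S} (hμ : ∀ w : S, MeasurePreserving (fun x => w * x) μ μ)
    {Q Q' W A : Set S} (hQ : MeasurableSet Q) (h0 : μ Q ≠ 0) (h1 : μ W ≠ ⊤)
    (hAW : ∀ n ∈ A, ∀ q ∈ Q, n * q ∈ W) (hQQ : ∀ p ∈ Q, ∀ q ∈ Q, p * q⁻¹ ∈ Q') {m : ℕ}
    (hm : μ W ≤ m * μ Q) :
    ∃ F : Finset S, (∀ f ∈ F, f ∈ A) ∧ F.card ≤ m ∧ ∀ n ∈ A, ∃ f ∈ F, f⁻¹ * n ∈ Q' := by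
  classical
  have hQne : Q.Nonempty := by
    rw [Set.nonempty_iff_ne_empty]
    rintro rfl
    simp at h0
  have hQt : μ Q ≠ ⊤ ∨ A = ∅ := by
    by_cases hA : A = ∅
    · exact Or.inr hA
    · obtain ⟨n, hn⟩ := Set.nonempty_iff_ne_empty.2 hA
      left
      have : μ Q ≤ μ W := by
        rw [← (hμ n⁻¹).measure_preimage hQ.nullMeasurableSet]
        refine measure_mono fun x hx => ?_
        have := hAW n hn _ hx
        simpa using this
      exact ne_top_of_le_ne_top h1 this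
  rcases hQt with hQt | hA
  swap
  · exact ⟨∅, by simp, by simp, by simp [hA]⟩
  -- disjoint families
  let Good : Finset S → Prop := fun F => (∀ f ∈ F, f ∈ A) ∧
    (F : Set S).PairwiseDisjoint fun f => (fun x => f⁻¹ * x) ⁻¹' Q
  have hcard : ∀ F, Good F → F.card ≤ m := by
    intro F hF
    have h2 : (F.card : ℝ≥0∞) * μ Q ≤ m * μ Q := by
      calc (F.card : ℝ≥0∞) * μ Q = ∑ f ∈ F, μ ((fun x => f⁻¹ * x) ⁻¹' Q) := by
            rw [Finset.sum_congr rfl fun f _ => (hμ f⁻¹).measure_preimage hQ.nullMeasurableSet,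
              Finset.sum_const, nsmul_eq_mul]
        _ = μ (⋃ f ∈ F, (fun x => f⁻¹ * x) ⁻¹' Q) :=
            (measure_biUnion_finset hF.2 fun f _ => (hμ f⁻¹).measurable hQ).symm
        _ ≤ μ W := by
            refine measure_mono fun x hx => ?_
            obtain ⟨f, hf, hx⟩ := mem_iUnion₂.1 hx
            have := hAW f (hF.1 f hf) _ hx
            simpa using this
        _ ≤ m * μ Q := hm
    rw [ENNReal.mul_le_mul_iff_left h0 hQt] at h2
    exact_mod_cast h2
  have hex : ∃ F, Good F ∧ ∀ F', Good F' → F'.card ≤ F.card := by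
    have hne : ∃ F, Good F := ⟨∅, by simp [Good]⟩
    by_contra hcon
    push Not at hcon
    have : ∀ j : ℕ, ∃ F, Good F ∧ j ≤ F.card := by
      intro j
      induction j with
      | zero => obtain ⟨F, hF⟩ := hne; exact ⟨F, hF, Nat.zero_le _⟩
      | succ j ih =>
        obtain ⟨F, hF, hj⟩ := ih
        obtain ⟨F', hF', hlt⟩ := hcon F hF
        exact ⟨F', hF', by omega⟩
    obtain ⟨F, hF, hj⟩ := this (m + 1)
    have := hcard F hF
    omega
  obtain ⟨F, hF, hmax⟩ := hex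
  refine ⟨F, hF.1, hcard F hF, fun n hn => ?_⟩
  by_contra hcon
  push Not at hcon
  have hdisj : ∀ f ∈ F, Disjoint ((fun x => f⁻¹ * x) ⁻¹' Q) ((fun x => n⁻¹ * x) ⁻¹' Q) := by
    intro f hf
    rw [Set.disjoint_left]
    intro x hx hx'
    refine hcon f hf ?_
    have := hQQ _ hx _ hx'
    have e : f⁻¹ * x * (n⁻¹ * x)⁻¹ = f⁻¹ * n := by group
    rwa [e] at this
  have hnF : n ∉ F := by
    intro hnF
    have := hdisj n hnF
    rw [disjoint_self] at this
    obtain ⟨q, hq⟩ := hQne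
    have h3 : n * q ∈ ((fun x => n⁻¹ * x) ⁻¹' Q) := by simpa using hq
    rw [this] at h3
    exact h3
  have hG : Good (insert n F) := by
    refine ⟨?_, ?_⟩
    · intro f hf
      rcases Finset.mem_insert.1 hf with rfl | hf
      · exact hn
      · exact hF.1 f hf
    · rw [Finset.coe_insert]
      refine hF.2.insert fun f hf _ => (hdisj f hf).symm
  have := hmax _ hG
  rw [Finset.card_insert_of_notMem hnF] at this
  omega

/-- **Doubling for the measure of the subgroup.** -/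
theorem EMeas.dbl (h : EMeas E ν) (hμ : ∀ w : S, MeasurePreserving (fun x => w * x) μ μ)
    {Q Q' W A : Set S} (hQ : MeasurableSet Q) (hQ' : MeasurableSet Q') (hA : MeasurableSet A)
    (h0 : μ Q ≠ 0) (h1 : μ W ≠ ⊤)
    (hAW : ∀ n ∈ A, ∀ q ∈ Q, n * q ∈ W) (hQQ : ∀ p ∈ Q, ∀ q ∈ Q, p * q⁻¹ ∈ Q') {m : ℕ}
    (hm : μ W ≤ m * μ Q) : ν A ≤ m * ν Q' := by
  obtain ⟨F, hF, hc, hcov⟩ := cover hμ (A := A ∩ E) hQ h0 h1 (fun n hn => hAW n hn.1) hQQ hm
  have hsub : ν A ≤ ν (⋃ f ∈ F, (fun x => f⁻¹ * x) ⁻¹' Q') := by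
    by_contra hcon
    rw [not_le] at hcon
    have hmu : MeasurableSet (⋃ f ∈ F, (fun x => f⁻¹ * x) ⁻¹' Q') :=
      Finset.measurableSet_biUnion F fun f _ => (measurable_const_mul f⁻¹) hQ'
    have h3 : ν (A \ ⋃ f ∈ F, (fun x => f⁻¹ * x) ⁻¹' Q') ≠ 0 := by
      intro h4
      have := measure_le_inter_add_sdiff ν A (⋃ f ∈ F, (fun x => f⁻¹ * x) ⁻¹' Q')
      rw [h4, add_zero] at this
      exact absurd (this.trans (measure_mono inter_subset_right)) (not_le.2 hcon)
    obtain ⟨n, hnE, hn⟩ := h.supp _ (hA.diff hmu) h3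
    obtain ⟨f, hf, hfn⟩ := hcov n ⟨hn.1, hnE⟩
    exact hn.2 (mem_iUnion₂.2 ⟨f, hf, hfn⟩)
  refine hsub.trans ((measure_biUnion_finset_le _ _).trans ?_)
  calc ∑ f ∈ F, ν ((fun x => f⁻¹ * x) ⁻¹' Q') = F.card * ν Q' := by
        rw [Finset.sum_congr rfl fun f hf =>
          (h.mpl _ (E.inv_mem (hF f hf).2)).measure_preimage hQ'.nullMeasurableSet,
          Finset.sum_const, nsmul_eq_mul]
    _ ≤ m * ν Q' := by gcongr

end Vale.Agent.P188.H235
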