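import Vale.Agent.P188.H540.Lattice

/-!
# P188, route A, block hinput: grids in convex bodies
-/

set_option linter.all false

namespace Vale.Agent.P188.H235

open MeasureTheory Set Filter Topology
open scoped Pointwise
open Vale.Agent.P188.H540

/-- the ratio between the small and the big box -/
noncomputable def tg (d : ℕ) : ℝ := 1 / (8 * (d + 1))

theorem tg_pos (d : ℕ) : 0 < tg d := by unfold tg; positivity

theorem tg_le (d : ℕ) : tg d ≤ 1 / 8 := by
  unfold tg
  apply one_div_le_one_div_of_le (by norm_num)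
  have : (0 : ℝ) ≤ d := Nat.cast_nonneg d
  linarith

theorem tg_pow (d : ℕ) : 3 / 4 ≤ (1 - 2 * tg d) ^ d := by
  have h := one_add_mul_le_pow (a := -(2 * tg d)) (by have := tg_le d; linarith) d
  have h2 : (d : ℝ) * tg d ≤ 1 / 8 := by
    unfold tg
    rw [mul_one_div, div_le_iff₀ (by positivity)]
    have : (0 : ℝ) ≤ d := Nat.cast_nonneg d
    nlinarith
  have h3 : (1 + -(2 * tg d)) ^ d = (1 - 2 * tg d) ^ d := by ring
  rw [h3] at h
  linarith

/-- the constant of the grids -/
def Mg (d : ℕ) : ℕ := 2 * (8 * (d + 1)) ^ d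

theorem Mg_mul (d : ℕ) : (Mg d : ℝ) * tg d ^ d = 2 := by
  unfold Mg tg
  push_cast
  rw [one_div, inv_pow]
  field_simp

/-- A fine grid in a convex body. -/
structure GridP (d : ℕ) (K : Set (Fin d → ℝ)) (q : ℝ) : Prop where
  q_pos : 0 < q
  fin : (LP K q).Finite
  card : (LP K q).ncard ≤ Mg d * (LP K (tg d * q)).ncard
  ne : (0 : Fin d → ℤ) ∈ LP K (tg d * q)
  sub : LP K (tg d * q) ⊆ LP K q
  shift : ∀ a ∈ LP K (tg d * q), ∀ b ∈ LP K (tg d * q),
    (LP K q).ncard ≤ 2 * {n | n ∈ LP K q ∧ n - a + b ∈ LP K q}.ncard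
  vol : volume.real K * q ^ d ≤ 2 * (LP K q).ncard

theorem vec_zero {d : ℕ} : vec (0 : Fin d → ℤ) = 0 := by funext i; simp [vec]

theorem vec_shift {d : ℕ} (n a b : Fin d → ℤ) : vec (n - a + b) = vec n - vec a + vec b := by
  funext i; simp [vec]

/-- **Fine grids exist.** -/
theorem exists_grid {d : ℕ} {K : Set (Fin d → ℝ)} (hc : Convex ℝ K) (hk : IsCompact K)
    (hi : (0 : Fin d → ℝ) ∈ interior K) (hs : ∀ x ∈ K, -x ∈ K) :
    ∀ᶠ q : ℝ in atTop, GridP d K q := by
  have h0 : (0 : Fin d → ℝ) ∈ K := interior_subset hi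
  have hb := hk.isBounded
  have hV : 0 < volume.real K := by
    rw [Measure.real, ENNReal.toReal_pos_iff]
    exact ⟨lt_of_lt_of_le (isOpen_interior.measure_pos volume ⟨0, hi⟩)
      (measure_mono interior_subset), hb.measure_lt_top⟩
  set V := volume.real K with hVd
  have ht := tg_pos d
  have ht8 := tg_le d
  have hT := tendsto_LP hc hb hk.measurableSet h0
  -- scaled versions
  have hTt : ∀ t : ℝ, 0 < t → Tendsto (fun q : ℝ => ((LP K (t * q)).ncard : ℝ) / q ^ d) atTop
      (𝓝 (V * t ^ d)) := by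
    intro t ht
    have hT2 : Tendsto (fun s : ℝ => ((LP K (t * s)).ncard : ℝ) / (t * s) ^ d) atTop
        (𝓝 V) := hT.comp (tendsto_id.const_mul_atTop ht)
    refine (hT2.mul_const (t ^ d)).congr' ?_
    filter_upwards [eventually_gt_atTop 0] with s hs
    have : (t * s) ^ d = t ^ d * s ^ d := mul_pow _ _ _
    rw [this]
    have h1 : t ^ d ≠ 0 := by positivity
    have h2 : s ^ d ≠ 0 := by positivity
    field_simp
  have e1 := hTt (tg d) ht
  have e2 := hTt (1 - 2 * tg d) (by linarith)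
  have e3 := hT.eventually_lt (e1.const_mul (Mg d : ℝ)) (by
    have := Mg_mul d
    have h4 : (Mg d : ℝ) * (V * tg d ^ d) = 2 * V := by linear_combination V * this
    rw [h4]; linarith)
  have e4 := hT.eventually_lt (e2.const_mul (2 : ℝ)) (by
    have := tg_pow d
    have h5 : 3 / 4 * V ≤ (1 - 2 * tg d) ^ d * V := mul_le_mul_of_nonneg_right this hV.le
    linarith)
  have e5 : ∀ᶠ q : ℝ in atTop, V / 2 < ((LP K q).ncard : ℝ) / q ^ d :=
    hT.eventually_const_lt (by linarith)
  filter_upwards [eventually_gt_atTop 0, e3, e4, e5] with q hq h3 h4 h5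
  have hqd : (0 : ℝ) < q ^ d := by positivity
  have hfin : (LP K q).Finite := LP_finite hb q
  refine ⟨hq, hfin, ?_, ?_, ?_, ?_, ?_⟩
  · rw [← mul_div_assoc, div_lt_div_iff_of_pos_right hqd] at h3
    exact_mod_cast h3.le
  · show vec (0 : Fin d → ℤ) ∈ (tg d * q) • K
    rw [vec_zero]
    exact ⟨0, h0, smul_zero _⟩
  · intro w hw
    exact LP_mono hc h0 (by positivity) (by nlinarith) hw
  · intro a ha b hb'
    have hsub : LP K ((1 - 2 * tg d) * q) ⊆ {n | n ∈ LP K q ∧ n - a + b ∈ LP K q} := by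
      intro n hn
      refine ⟨LP_mono hc h0 (by nlinarith) (by nlinarith) hn, ?_⟩
      show vec (n - a + b) ∈ q • K
      rw [vec_shift]
      have ha' : -vec a ∈ (tg d * q) • K := by
        obtain ⟨x, hx, hx2⟩ := ha
        exact ⟨-x, hs x hx, by rw [← hx2]; simp⟩
      have hq2 : q = (1 - 2 * tg d) * q + (tg d * q + tg d * q) := by ring
      have hv : vec n - vec a + vec b = vec n + (-vec a + vec b) := by abel
      rw [hv, hq2, hc.add_smul (by nlinarith) (by positivity), hc.add_smul (by positivity)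
        (by positivity)]
      exact Set.add_mem_add hn (Set.add_mem_add ha' hb')
    have h6 : (LP K ((1 - 2 * tg d) * q)).ncard ≤ {n | n ∈ LP K q ∧ n - a + b ∈ LP K q}.ncard :=
      Set.ncard_le_ncard hsub (hfin.subset fun n hn => hn.1)
    rw [← mul_div_assoc, div_lt_div_iff_of_pos_right hqd] at h4
    have h7 : (LP K q).ncard ≤ 2 * (LP K ((1 - 2 * tg d) * q)).ncard := by exact_mod_cast h4.le
    omega
  · rw [div_lt_div_iff₀ (by norm_num) hqd] at h5
    linarith

end Vale.Agent.P188.H235
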