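import Vale.Agent.P188.H235.Lam
import Vale.Agent.P188.H382.FlatGrid
import Vale.Agent.P188.H540.BoxI
import Vale.Agent.P188.H616.M1
import Vale.Agent.P188.Z1.Neut3

/-!
# P188, route A: `InputA` from `FLAT1`
-/

set_option linter.all false

open MeasureTheory Set Filter Topology
open scoped ENNReal
open Vale.Agent.P188.Z1
open Vale.Agent.P188.H540 (vec LP)

namespace Vale.Agent.P188.H235

variable {S : Type} [Group S] [MeasurableSpace S] {Γ : Type} [Group Γ]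
  {V : Type} [AddCommGroup V] [Module ℝ V] {k : ℕ} {M : RModel S Γ V k}

theorem flatI_mono' {S : Type} [Group S] {X : Type} {I : Type} {E : Type} [NormedAddCommGroup E]
    {A : H382.RAct S X} {φ : I → S} {l : S → ℕ} {W : X → E} {R1 : ℕ} {B : Finset I} {α α' ε : ℝ}
    (h : H382.FlatI A φ l W R1 B α ε) (hα : α ≤ α') : H382.FlatI A φ l W R1 B α' ε := by
  classical
  intro Y g hg
  refine le_trans ?_ (h Y g hg)
  have h5 : (((B ×ˢ B).filter fun q =>
      α' < ‖W (A.act Y (φ q.2 * g)) - W (A.act Y (φ q.1))‖).card) ≤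
      (((B ×ˢ B).filter fun q =>
      α < ‖W (A.act Y (φ q.2 * g)) - W (A.act Y (φ q.1))‖).card) := by
    refine Finset.card_le_card fun p hp => ?_
    rw [Finset.mem_filter] at hp ⊢
    exact ⟨hp.1, lt_of_le_of_lt hα hp.2⟩
  exact_mod_cast h5

/-- **`InputA` from `FLAT1`**, given exponential coordinates of the exponential radical. -/
theorem inputA_of_flat1 {B : M.NatBox} (hB : B.Fine) {d : ℕ} (c : EChart M B d) {K : ℝ}
    {𝓕 : Set (Γ → Γ)} (hQ : ∀ F ∈ 𝓕, ∃ F', M.QIm K F F') (hF : M.FLAT1 B 𝓕) :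
    H382.InputA M 𝓕 := by
  have hBC := B.one_le
  have hBC0 : 0 < B.C := by linarith
  obtain ⟨c₂, hc₂, hgood⟩ := RModel.F6.exists_hgood_en M
  obtain ⟨cu, a, hcu, ha, ha1, hlam⟩ := lamflat c (M.neut_holds B hB) hQ hF hc₂
  obtain ⟨CL, hCL, hlen⟩ := H540.len_box B hc₂
  refine ⟨⌈2 * CL / cu⌉₊, Mg d, fun η0 ε0 hη0 hε0 Rm => ?_⟩
  obtain ⟨dm, hdm, hlam⟩ := hlam (η0 * cu / 8) (ε0 / 4) (by positivity) (by positivity)
  obtain ⟨d₁, hd₁⟩ : ∃ d₁ : ℝ, d₁ = min dm 1 := ⟨_, rfl⟩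
  have hd₁0 : 0 < d₁ := by rw [hd₁]; exact lt_min hdm one_pos
  have hd₁1 : d₁ ≤ 1 := by rw [hd₁]; exact min_le_right _ _
  have hev := ((((hlam d₁ hd₁0 (by rw [hd₁]; exact min_le_left _ _)).and
    (eventually_ge_atTop (1 : ℝ))).and (ev_const (2 * B.C ^ 2 / a) hd₁0)).and
    (ev_const (2 * B.C ^ 2 / a) hc₂)).and ((eventually_ge_atTop ((Rm + 2) / cu)).and
    (eventually_ge_atTop (4 * H382.flC M K / (η0 * cu))))
  obtain ⟨s, ⟨⟨⟨hs1, hs2⟩, hs3⟩, hs4⟩, hs5, hs6⟩ := hev.exists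
  have hs0 : 0 < s := by linarith
  have hlam' := hs1 en hgood
  rw [div_le_iff₀ hcu] at hs5
  rw [div_le_iff₀ (by positivity)] at hs6
  rw [div_le_iff₀ ha] at hs3 hs4
  -- sizes
  obtain ⟨R, hR⟩ : ∃ R : M.ι → ℝ, R = fun i => a * M.szh en d₁ s i := ⟨_, rfl⟩
  have hRge : ∀ i, 2 * B.C ^ 2 ≤ R i := by
    intro i
    rw [hR]
    show 2 * B.C ^ 2 ≤ a * M.szh en d₁ s i
    unfold RModel.szh
    split_ifs with hi
    · linarith
    · have hb := (M.wt_mem i).resolve_right hi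
      have h1 : Real.exp (c₂ * s) ≤ Real.exp (s * en (M.wt i)) := by
        apply Real.exp_le_exp.2
        have := mul_le_mul_of_nonneg_left (hgood.bd _ hb).1 hs0.le
        linarith
      have h2 := mul_le_mul_of_nonneg_left h1 ha.le
      linarith
  have hR0 : ∀ i, 0 < R i := fun i => lt_of_lt_of_le (by positivity) (hRge i)
  have hR0' : ∀ i, 0 < B.C⁻¹ * R i := fun i => by have := hR0 i; positivity
  -- the scale
  obtain ⟨R1, hR1⟩ : ∃ R1 : ℕ, R1 = ⌊cu * s⌋₊ := ⟨_, rfl⟩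
  have hcs : 0 ≤ cu * s := by positivity
  have hR1a : (R1 : ℝ) ≤ cu * s := by rw [hR1]; exact Nat.floor_le hcs
  have hR1b : cu * s < R1 + 1 := by rw [hR1]; exact Nat.lt_floor_add_one _
  have hRm0 : (0 : ℝ) ≤ Rm := Nat.cast_nonneg _
  have hR1c : cu * s ≤ 2 * R1 := by linarith
  have hRmR : Rm ≤ R1 := by
    have : (Rm : ℝ) ≤ R1 := by linarith
    exact_mod_cast this
  have h1R : 1 ≤ R1 := by
    have : (1 : ℝ) ≤ R1 := by linarith
    exact_mod_cast this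
  -- the grid
  set K' : Set (Fin d → ℝ) := {x | c.P x ∈ B.Bx fun i => B.C⁻¹ * R i} with hK'
  have hgrid := exists_grid (K := K') (c.cvx _ hR0') (c.cpt _ hR0')
    (mem_interior_iff_mem_nhds.2 (c.int _ hR0')) (fun x hx => by
      show c.P (-x) ∈ B.Bx fun i => B.C⁻¹ * R i
      rw [c.neg]
      exact B.inv _ _ hx)
  have hflat := H382.flatI_grid c hRge hQ (τ := η0 * cu / 8 * s) (ε := ε0 / 4) (by positivity)
    (R1 := R1) (by
      intro F hFF Y
      obtain ⟨cY, hcY⟩ := hlam' F hFF Y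
      refine ⟨cY, fun g hg => ?_⟩
      have h1 := hcY g ((show (M.l g : ℝ) ≤ R1 by exact_mod_cast hg).trans hR1a)
      rw [hR]
      exact h1)
  obtain ⟨q, hq, hflq⟩ := (hgrid.and hflat).exists
  refine ⟨R1, Fin d → ℤ, fun n => c.P (q⁻¹ • vec n), hq.fin.toFinset,
    (hq.fin.subset hq.sub).toFinset, hRmR, h1R, ?_, ?_⟩
  · refine H540.boxesI_grid c hR0' hq ?_
    intro x hx hxE
    have hx' : x ∈ B.Bx (M.szh en d₁ s) := by
      refine B.mono _ _ (fun i => (hR0' i).le) (fun i => ?_) hx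
      rw [hR]
      show B.C⁻¹ * (a * M.szh en d₁ s i) ≤ M.szh en d₁ s i
      have h1 := szh_pos' (M := M) en d₁ s i
      have h2 : B.C⁻¹ * a ≤ 1 := mul_le_one₀ (inv_le_one_of_one_le₀ hBC) ha.le ha1
      rw [← mul_assoc]
      exact mul_le_of_le_one_left h1.le h2
    have h1 := hlen d₁ s hd₁0 hd₁1 hs2 en hgood.bd x hx' hxE
    have h2 : (2 * CL / cu) ≤ (⌈2 * CL / cu⌉₊ : ℝ) := Nat.le_ceil _
    have h3 : CL * s ≤ (⌈2 * CL / cu⌉₊ : ℝ) * R1 := by
      rw [div_le_iff₀ hcu] at h2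
      have h4 : CL * s * cu ≤ ((⌈2 * CL / cu⌉₊ : ℝ) * R1) * cu := by
        calc CL * s * cu = CL * (cu * s) := by ring
          _ ≤ CL * (2 * R1) := mul_le_mul_of_nonneg_left hR1c hCL.le
          _ = (2 * CL) * R1 := by ring
          _ ≤ ((⌈2 * CL / cu⌉₊ : ℝ) * cu) * R1 :=
              mul_le_mul_of_nonneg_right h2 (Nat.cast_nonneg _)
          _ = _ := by ring
      exact le_of_mul_le_mul_right h4 hcu
    exact_mod_cast h1.trans h3
  · intro F hFF Y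
    have h1 := hflq hq F hFF Y
    have h2 : 2 * (η0 * cu / 8 * s) + H382.flC M K ≤ η0 * R1 := by
      have h3 := mul_le_mul_of_nonneg_left hR1c hη0.le
      linarith
    have e : 4 * (ε0 / 4) = ε0 := by ring
    rw [e] at h1
    exact flatI_mono' h1 h2

end Vale.Agent.P188.H235
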