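import Vale.Agent.P188.H235.NfE
import Vale.Agent.P188.Z1.LabS

/-!
# P188, route A, block hinput: flatness on the boxes of `E`
-/

set_option linter.all false

open MeasureTheory Set Filter Topology
open scoped ENNReal
open Vale.Agent.P188.H530 (hgt)
open Vale.Agent.P188.Z1

namespace Vale.Agent.P188.H235

variable {S : Type} [Group S] [MeasurableSpace S] {Γ : Type} [Group Γ]
  {V : Type} [AddCommGroup V] [Module ℝ V] {k : ℕ} {M : RModel S Γ V k}

/-- the size of the exponential part of the decomposition `s = ex v * c` -/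
theorem dec_size' (M : RModel S Γ V k) : ∃ κ : ℝ, 0 ≤ κ ∧ ∀ s : S, ∃ v ∈ M.e,
    ∃ c ∈ M.CB ⌈M.C0 * M.l s⌉₊, s = M.ex v * c ∧ M.nm v ≤ Real.exp (κ * (M.l s + 1)) := by
  obtain ⟨C1, hC1, hCB⟩ := M.l_CB
  have hC0 := M.C0_pos
  refine ⟨M.C0 * (1 + 1 + C1 * (M.C0 + 1)), by positivity, fun s => ?_⟩
  obtain ⟨v, hv, c, hc, h⟩ := M.dec s
  refine ⟨v, hv, c, hc, h, (M.met_lo v).trans (Real.exp_le_exp.2 ?_)⟩
  have h1 : M.ex v = s * c⁻¹ := by rw [h, mul_inv_cancel_right]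
  have h2 : (M.l (M.ex v) : ℝ) ≤ M.l s + M.l c := by
    rw [h1]
    have := M.len.mul s c⁻¹
    rw [M.len.inv] at this
    exact_mod_cast this
  have h3 : (M.l c : ℝ) ≤ C1 * (M.C0 * M.l s + 1) := by
    refine (hCB _ c hc).trans (mul_le_mul_of_nonneg_left ?_ (by linarith))
    exact (Nat.ceil_lt_add_one (by positivity)).le
  have hl : (0 : ℝ) ≤ M.l s := Nat.cast_nonneg _
  rw [mul_assoc]
  refine mul_le_mul_of_nonneg_left ?_ hC0.le
  nlinarith [mul_nonneg (mul_nonneg (by linarith : (0:ℝ) ≤ C1) hC0.le) hl,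
    mul_nonneg (by linarith : (0:ℝ) ≤ C1) hl]

/-- one translate: the measure of the bad set of `E` -/
theorem lam_step {B : M.NatBox} {d : ℕ} (c : EChart M B d) {R : M.ι → ℝ} (hR : ∀ i, 0 < R i)
    {F : Γ → Γ} {Y g₀ : S} {cY : Z1.Ht k} {s η ε' ε₁ Cμ : ℝ} {a₂ : ℝ}
    (ha₂ : a₂ = (B.C ^ (B.m + 2))⁻¹) (hs : 0 ≤ s) (hε'η : ε' ≤ η / 2) (hε' : 0 ≤ ε')
    (hCμ : M.μ (B.Bx R) ≤ ENNReal.ofReal Cμ * M.μ (B.Bx fun i => a₂ * R i))
    (hμ : M.μ {v | v ∈ B.Bx R ∧ ε' * s < ‖M.f F (Y * (v * g₀)) - cY - M.θ g₀‖} ≤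
      ENNReal.ofReal ε' * M.μ (B.Bx R))
    (hnf : ∀ L : List (M.ι × ℝ), L.length ≤ B.m → (∀ p ∈ L, M.wt p.1 = 0 ∧ |p.2| ≤ B.C * R p.1) →
      c.ν {x | x ∈ B.Bx R ∧ η / 2 * s < ‖M.f F (Y * (x * lp M L * g₀)) - M.f F (Y * (x * g₀))‖} ≤
        ENNReal.ofReal ε₁ * c.ν (B.Bx R)) :
    c.ν {x | x ∈ B.Bx (fun i => B.C⁻¹ * R i) ∧
      η * s < ‖M.f F (Y * (x * g₀)) - cY - M.θ g₀‖} ≤
      (ENNReal.ofReal ε₁ + ENNReal.ofReal ε' * ENNReal.ofReal Cμ) * c.ν (B.Bx R) := by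
  haveI := M.mm
  haveI := M.mi
  have hBC := B.one_le
  have hBC0 : 0 < B.C := by linarith
  have ha₂0 : 0 < a₂ := by rw [ha₂]; positivity
  set U : Set S := B.Bx fun i => a₂ * R i with hU
  set A : Set S := {v | v ∈ B.Bx R ∧ ε' * s < ‖M.f F (Y * (v * g₀)) - cY - M.θ g₀‖} with hA
  have hmeas : ∀ (τ : ℝ) (R' : M.ι → ℝ), MeasurableSet {v | v ∈ B.Bx R' ∧
      τ < ‖M.f F (Y * (v * g₀)) - cY - M.θ g₀‖} := by
    intro τ R'
    refine (B.meas _).inter (measurableSet_lt measurable_const (Measurable.norm ?_))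
    refine (((M.measurable_f F).comp ?_).sub measurable_const).sub measurable_const
    exact (measurable_id.mul_const _).const_mul _
  have hAm : MeasurableSet A := hmeas _ _
  have hR2 : ∀ i, 0 < a₂ * R i := fun i => by have := hR i; positivity
  obtain ⟨u, hu, hpick⟩ := c.emeas.pick M.mpl (U := U) (B.meas _) hAm
    (fun x => c.sup_le (fun i => (hR2 i).le) x) (B.pos _ hR2) (B.fin _)
  obtain ⟨e, he, L, hL, hLp, hue, hlp, -⟩ := split B (fun i => (hR2 i).le) hu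
  have hpre : {x | x * u ∈ A} = (fun x => x * e) ⁻¹' {x | x * lp M L ∈ A} := by
    ext x
    show x * u ∈ A ↔ x * e * lp M L ∈ A
    rw [hue, mul_assoc]
  have hm2 : MeasurableSet {x | x * lp M L ∈ A} := (measurable_mul_const (lp M L)) hAm
  rw [hpre, (c.emeas.mpr e he).measure_preimage hm2.nullMeasurableSet] at hpick
  -- cancel the measure of `U`
  have hCa : B.C * a₂ ≤ 1 := by
    rw [ha₂, pow_succ, mul_inv, mul_comm, mul_assoc, inv_mul_cancel₀ hBC0.ne', mul_one]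
    exact inv_le_one_of_one_le₀ (one_le_pow₀ hBC)
  have h1 : c.ν {x | x * lp M L ∈ A} ≤
      ENNReal.ofReal ε' * ENNReal.ofReal Cμ * c.ν (B.Bx R) := by
    have h2 : c.ν {x | x * lp M L ∈ A} * M.μ U ≤
        (ENNReal.ofReal ε' * ENNReal.ofReal Cμ * c.ν (B.Bx R)) * M.μ U := by
      refine hpick.trans ?_
      have h3 : c.ν (B.Bx fun i => B.C * (a₂ * R i)) ≤ c.ν (B.Bx R) := by
        refine measure_mono fun x hx => bx_mono B (fun i => by have := hR i; positivity)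
          (fun i => ?_) hx
        have := hR i
        rw [← mul_assoc]
        nlinarith
      calc c.ν (B.Bx fun i => B.C * (a₂ * R i)) * M.μ A
          ≤ c.ν (B.Bx R) * (ENNReal.ofReal ε' * (ENNReal.ofReal Cμ * M.μ U)) :=
            mul_le_mul' h3 (hμ.trans (mul_le_mul' le_rfl hCμ))
        _ = _ := by ring
    exact (ENNReal.mul_le_mul_iff_left (B.pos _ hR2) (B.fin _)).1 h2
  have h4 := hnf L hL fun p hp => by
    obtain ⟨hp1, hp2⟩ := hLp p hp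
    refine ⟨hp1, hp2.trans (mul_le_mul_of_nonneg_left ?_ hBC0.le)⟩
    have := hR p.1
    nlinarith
  rw [add_mul]
  refine le_trans (measure_mono ?_) ((measure_union_le _ _).trans (add_le_add h4 h1))
  rintro x ⟨hx1, hx2⟩
  by_cases hx3 : η / 2 * s < ‖M.f F (Y * (x * lp M L * g₀)) - M.f F (Y * (x * g₀))‖
  · left
    refine ⟨bx_mono B (fun i => by have := hR i; positivity) (fun i => ?_) hx1, hx3⟩
    have := hR i
    have h5 : B.C⁻¹ ≤ 1 := inv_le_one_of_one_le₀ hBC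
    nlinarith
  · right
    rw [not_lt] at hx3
    refine ⟨?_, ?_⟩
    · have h5 : x * lp M L ∈ B.Bx fun i => 1 * R i := by
        refine bx_mul B (fun i => (hR i).le) (a := B.C⁻¹) (b := B.C ^ (B.m + 1) * a₂)
          (by positivity) (by positivity) ?_ ?_ hx1 ?_
        · rw [mul_inv_cancel₀ hBC0.ne']
        · rw [ha₂, ← mul_assoc, ← pow_succ', mul_inv_cancel₀ (by positivity)]
        · refine bx_mono B (fun i => by have := hR i; positivity) (fun i => ?_) hlp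
          rw [mul_assoc]
      simpa using h5
    · have h6 : ‖M.f F (Y * (x * g₀)) - cY - M.θ g₀‖ ≤
          ‖M.f F (Y * (x * lp M L * g₀)) - cY - M.θ g₀‖ +
            ‖M.f F (Y * (x * lp M L * g₀)) - M.f F (Y * (x * g₀))‖ := by
        have h7 : M.f F (Y * (x * g₀)) - cY - M.θ g₀ =
          (M.f F (Y * (x * lp M L * g₀)) - cY - M.θ g₀) -
            (M.f F (Y * (x * lp M L * g₀)) - M.f F (Y * (x * g₀))) := by abel
        rw [h7]
        exact norm_sub_le _ _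
      have h8 : ε' * s ≤ η / 2 * s := mul_le_mul_of_nonneg_right hε'η hs
      show ε' * s < ‖M.f F (Y * (x * lp M L * g₀)) - cY - M.θ g₀‖
      linarith

/-- **Flatness on the boxes of `E`.** -/
theorem lamflat {B : M.NatBox} {d : ℕ} (c : EChart M B d) (hN : M.NEUT B) {K : ℝ}
    {𝓕 : Set (Γ → Γ)} (hQ : ∀ F ∈ 𝓕, ∃ F', M.QIm K F F') (hF : M.FLAT1 B 𝓕) {c₂ : ℝ}
    (hc₂ : 0 < c₂) : ∃ cu a : ℝ, 0 < cu ∧ 0 < a ∧ a ≤ 1 ∧ ∀ η ε : ℝ, 0 < η → 0 < ε →
      ∃ dm : ℝ, 0 < dm ∧ ∀ d₁ : ℝ, 0 < d₁ → d₁ ≤ dm → ∀ᶠ s : ℝ in atTop,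
      ∀ h : (Z1.Ht k →L[ℝ] ℝ) → ℝ, M.HGood c₂ h → ∀ F ∈ 𝓕, ∀ Y : S, ∃ cY : Z1.Ht k, ∀ g : S,
        (M.l g : ℝ) ≤ cu * s →
        c.ν {x | x ∈ B.Bx (fun i => a * M.szh h d₁ s i) ∧
          η * s < ‖M.f F (Y * (x * g)) - cY - M.θ g‖} ≤
        ENNReal.ofReal ε * c.ν (B.Bx fun i => B.C⁻¹ * (a * M.szh h d₁ s i)) := by
  haveI := M.mm
  haveI := M.mi
  have hC0 := M.one_le_C0
  have hBC := B.one_le
  have hBC0 : 0 < B.C := by linarith
  obtain ⟨c₁, hc₁, hFl⟩ := hF c₂ hc₂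
  obtain ⟨κd, hκd, hdec⟩ := dec_size' M
  obtain ⟨Cl, hCl, hl⟩ := M.l_CB
  obtain ⟨Kφ, hKφ, hφ⟩ := wt_bd M
  obtain ⟨cu, hcu⟩ : ∃ cu : ℝ, cu = min (c₁ / (2 * (Cl * M.C0)))
    (min (c₂ / (2 * ((Kφ + 1) * M.C0))) (c₂ / (2 * (κd + 1)))) := ⟨_, rfl⟩
  have hcu0 : 0 < cu := by rw [hcu]; exact lt_min (by positivity) (lt_min (by positivity) (by positivity))
  have hcu1 : Cl * M.C0 * cu ≤ c₁ / 2 := by
    have : cu ≤ c₁ / (2 * (Cl * M.C0)) := by rw [hcu]; exact min_le_left _ _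
    rw [le_div_iff₀ (by positivity)] at this
    linarith
  have hcu2 : Kφ * (M.C0 * cu) ≤ c₂ / 2 := by
    have h1 : cu ≤ c₂ / (2 * ((Kφ + 1) * M.C0)) := by
      rw [hcu]; exact (min_le_right _ _).trans (min_le_left _ _)
    rw [le_div_iff₀ (by positivity)] at h1
    have h2 : 0 ≤ M.C0 * cu := by positivity
    linarith
  have hcu3 : κd * cu ≤ c₂ / 2 := by
    have h1 : cu ≤ c₂ / (2 * (κd + 1)) := by
      rw [hcu]; exact (min_le_right _ _).trans (min_le_right _ _)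
    rw [le_div_iff₀ (by positivity)] at h1
    linarith
  obtain ⟨a₂, ha₂⟩ : ∃ a₂ : ℝ, a₂ = (B.C ^ (B.m + 2))⁻¹ := ⟨_, rfl⟩
  have ha₂0 : 0 < a₂ := by rw [ha₂]; positivity
  obtain ⟨a, ha⟩ : ∃ a : ℝ, a = B.C⁻¹ * B.C⁻¹ := ⟨_, rfl⟩
  have hCi : B.C⁻¹ ≤ 1 := inv_le_one_of_one_le₀ hBC
  have hCi0 : 0 < B.C⁻¹ := by positivity
  have ha0 : 0 < a := by rw [ha]; positivity
  have ha1 : a ≤ 1 := by rw [ha]; exact mul_le_one₀ hCi hCi0.le hCi
  refine ⟨cu, a, hcu0, ha0, ha1, fun η ε hη hε => ?_⟩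
  obtain ⟨c₃, hc₃, dmN, hdmN, hnf⟩ := nfE c hN (K := K) hc₂ (show 0 < η / 2 by positivity)
    (show 0 ≤ M.C0 * cu + 1 by positivity)
  obtain ⟨Cμ', hCμ'⟩ := B.dbl a₂⁻¹ (by
    rw [ha₂, inv_inv]; exact one_le_pow₀ hBC)
  obtain ⟨m₂, hm₂, hm₂'⟩ := c.nu_dbl (B.C ^ 3) (one_le_pow₀ hBC)
  have hm₂0 : (0 : ℝ) < m₂ := by exact_mod_cast hm₂
  obtain ⟨Cμ, hCμ⟩ : ∃ Cμ : ℝ, Cμ = max Cμ' 1 := ⟨_, rfl⟩
  have hCμ0 : 0 < Cμ := by rw [hCμ]; exact lt_of_lt_of_le one_pos (le_max_right _ _)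
  obtain ⟨ε', hε'⟩ : ∃ ε' : ℝ, ε' = min (η / 2) (ε / (2 * (Cμ * m₂))) := ⟨_, rfl⟩
  have hε'0 : 0 < ε' := by rw [hε']; exact lt_min (by positivity) (by positivity)
  have hε'1 : ε' ≤ η / 2 := by rw [hε']; exact min_le_left _ _
  have hε'2 : ε' * Cμ * m₂ ≤ ε / 2 := by
    have h1 : ε' ≤ ε / (2 * (Cμ * m₂)) := by rw [hε']; exact min_le_right _ _
    rw [le_div_iff₀ (by positivity)] at h1
    linarith
  obtain ⟨dmF, hdmF, hFl⟩ := hFl ε' (1 / 2) 0 hε'0 (by norm_num) (by norm_num)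
  refine ⟨min dmF dmN, lt_min hdmF hdmN, fun d₁ hd₁ hd₁m => ?_⟩
  obtain ⟨s₀, hFl⟩ := hFl d₁ hd₁ (hd₁m.trans (min_le_left _ _))
  filter_upwards [eventually_ge_atTop s₀, eventually_ge_atTop (1 : ℝ),
    hnf d₁ hd₁ (hd₁m.trans (min_le_right _ _)), ev_const (2 * m₂ / ε) hc₃,
    eventually_ge_atTop (2 * Cl / c₁), ev_const a⁻¹ hd₁,
    ev_const (2 * B.C * Real.exp κd / a) (show 0 < c₂ / 2 by positivity)]
    with s hs₀ hs1 hnf' hs2 hs3 hs4 hs5
  intro h hh F hFF Y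
  have hs0 : 0 < s := by linarith
  obtain ⟨F', hF'⟩ := hQ F hFF
  obtain ⟨cY, hcY, -⟩ := hFl s hs₀ h hh F hFF Y
  refine ⟨cY, fun g hg => ?_⟩
  obtain ⟨v₁, hv₁, g₀, hg₀, hgd, hv₁n⟩ := hdec g
  obtain ⟨R, hRdef⟩ : ∃ R : M.ι → ℝ, R = M.szh h d₁ s := ⟨_, rfl⟩
  have hR : ∀ i, 0 < R i := by rw [hRdef]; exact szh_pos' h d₁ s
  rw [← hRdef] at hcY ⊢
  have hθ : M.θ g = M.θ g₀ := by rw [hgd, M.θ_mul, M.θ_ex, zero_add]
  have hn : ((⌈M.C0 * M.l g⌉₊ : ℕ) : ℝ) ≤ M.C0 * (cu * s) + 1 := by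
    refine (Nat.ceil_lt_add_one (by positivity)).le.trans ?_
    have := mul_le_mul_of_nonneg_left hg (show 0 ≤ M.C0 by linarith)
    linarith
  have hlg₀ : (M.l g₀ : ℝ) ≤ c₁ * s := by
    refine (hl _ g₀ hg₀).trans ?_
    have h1 := mul_le_mul_of_nonneg_left hn (show 0 ≤ Cl by linarith)
    have h2 := mul_le_mul_of_nonneg_right hcu1 hs0.le
    rw [div_le_iff₀ hc₁] at hs3
    linarith
  have hwin : ∀ b ∈ M.Φ, b (M.θ g₀) ≤ 1 / 2 * s * h b := by
    intro b hb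
    rw [← hθ]
    have h1 := (abs_le.1 (hφ b hb (M.θ g))).2
    have h2 : ‖M.θ g‖ ≤ M.C0 * (cu * s) :=
      (M.θ_le g).trans (mul_le_mul_of_nonneg_left hg (by linarith))
    have h3 := mul_le_mul_of_nonneg_left h2 hKφ
    have h4 := mul_le_mul_of_nonneg_right hcu2 hs0.le
    have h5 := mul_le_mul_of_nonneg_left (hh.bd b hb).1 hs0.le
    linarith
  have hstep := lam_step c hR (F := F) (Y := Y) (g₀ := g₀) (cY := cY) (s := s) (η := η)
    (ε' := ε') (ε₁ := Real.exp (-(c₃ * s))) (Cμ := Cμ) ha₂ hs0.le hε'1 hε'0.le (by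
      have h1 := hCμ' (fun i => a₂ * R i) fun i => by have := hR i; positivity
      have e : (fun i => a₂⁻¹ * (a₂ * R i)) = R := by
        funext i
        rw [← mul_assoc, inv_mul_cancel₀ ha₂0.ne', one_mul]
      rw [e] at h1
      refine h1.trans (mul_le_mul' (ENNReal.ofReal_le_ofReal ?_) le_rfl)
      rw [hCμ]; exact le_max_left _ _) (hcY g₀ hlg₀) (by
      intro L hL hLp
      rw [hRdef]
      refine hnf' h hh F F' hF' Y ⌈M.C0 * M.l g⌉₊ ?_ g₀ hg₀ hwin L hL ?_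
      · linarith
      · intro p hp
        obtain ⟨hp1, hp2⟩ := hLp p hp
        refine ⟨hp1, ?_⟩
        have : R p.1 = Real.exp (d₁ * s) := by
          rw [hRdef]; unfold RModel.szh; rw [if_pos hp1]
        rwa [this] at hp2)
  -- the part in `e`
  have hexv : M.ex v₁ ∈ B.Bx fun i => a * R i := by
    refine B.mono _ _ ?_ ?_ (B.ball_e v₁ hv₁)
    · intro i
      unfold RModel.two
      split_ifs
      · exact zero_le_one
      · have := M.nm_nonneg v₁; positivity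
    · intro i
      rw [hRdef]
      unfold RModel.two RModel.szh
      split_ifs with hi
      · have h1 := mul_le_mul_of_nonneg_left hs4 ha0.le
        rwa [mul_inv_cancel₀ ha0.ne'] at h1
      · have hb := (M.wt_mem i).resolve_right hi
        have h1 : Real.exp (κd * (M.l g + 1)) ≤ Real.exp κd * Real.exp (c₂ / 2 * s) := by
          rw [← Real.exp_add]
          apply Real.exp_le_exp.2
          have h2 := mul_le_mul_of_nonneg_left hg hκd
          have h3 := mul_le_mul_of_nonneg_right hcu3 hs0.le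
          linarith
        have h2 : Real.exp (c₂ * s) ≤ Real.exp (s * h (M.wt i)) := by
          apply Real.exp_le_exp.2
          have := mul_le_mul_of_nonneg_left (hh.bd _ hb).1 hs0.le
          linarith
        have h3 : 1 ≤ Real.exp κd * Real.exp (c₂ / 2 * s) := by
          rw [← Real.exp_add]; exact Real.one_le_exp (by positivity)
        calc B.C * (1 + M.nm v₁) ≤ B.C * (2 * (Real.exp κd * Real.exp (c₂ / 2 * s))) :=
              mul_le_mul_of_nonneg_left (by linarith [hv₁n.trans h1]) hBC0.le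
          _ = a * ((2 * B.C * Real.exp κd / a) * Real.exp (c₂ / 2 * s)) := by
              field_simp
          _ ≤ a * (Real.exp (c₂ / 2 * s) * Real.exp (c₂ / 2 * s)) := by gcongr
          _ = a * Real.exp (c₂ * s) := by rw [← Real.exp_add]; congr 2; ring
          _ ≤ _ := mul_le_mul_of_nonneg_left h2 ha0.le
  have hvE : M.ex v₁ ∈ M.E := (M.mem_E _).2 ⟨v₁, hv₁, rfl⟩
  set T : Set S := {x | x ∈ B.Bx (fun i => B.C⁻¹ * R i) ∧
      η * s < ‖M.f F (Y * (x * g₀)) - cY - M.θ g₀‖} with hT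
  have hTm : MeasurableSet T := by
    refine (B.meas _).inter (measurableSet_lt measurable_const (Measurable.norm ?_))
    refine (((M.measurable_f F).comp ?_).sub measurable_const).sub measurable_const
    exact (measurable_id.mul_const _).const_mul _
  have hsub : {x | x ∈ B.Bx (fun i => a * R i) ∧ η * s < ‖M.f F (Y * (x * g)) - cY - M.θ g‖} ⊆
      (fun x => x * M.ex v₁) ⁻¹' T := by
    rintro x ⟨hx1, hx2⟩
    refine ⟨?_, ?_⟩
    · refine bx_mul B (fun i => (hR i).le) ha0.le ha0.le ?_ ?_ hx1 hexv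
      · rw [ha, ← mul_assoc, mul_inv_cancel₀ hBC0.ne', one_mul]
      · rw [ha, ← mul_assoc, mul_inv_cancel₀ hBC0.ne', one_mul]
    · show η * s < ‖M.f F (Y * (x * M.ex v₁ * g₀)) - cY - M.θ g₀‖
      rw [hθ, hgd, ← mul_assoc x] at hx2
      exact hx2
  refine (measure_mono hsub).trans ?_
  rw [(c.emeas.mpr _ hvE).measure_preimage hTm.nullMeasurableSet]
  refine hstep.trans ?_
  have h7 : c.ν (B.Bx R) ≤ m₂ * c.ν (B.Bx fun i => B.C⁻¹ * (a * R i)) := by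
    have h8 := hm₂' (fun i => B.C⁻¹ * (a * R i)) fun i => by have := hR i; positivity
    have e : (fun i => B.C ^ 3 * (B.C⁻¹ * (a * R i))) = R := by
      funext i
      rw [ha]
      field_simp
    rwa [e] at h8
  calc (ENNReal.ofReal (Real.exp (-(c₃ * s))) + ENNReal.ofReal ε' * ENNReal.ofReal Cμ) *
        c.ν (B.Bx R)
      ≤ (ENNReal.ofReal (Real.exp (-(c₃ * s))) + ENNReal.ofReal ε' * ENNReal.ofReal Cμ) *
        (m₂ * c.ν (B.Bx fun i => B.C⁻¹ * (a * R i))) := mul_le_mul' le_rfl h7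
    _ = (ENNReal.ofReal (Real.exp (-(c₃ * s))) + ENNReal.ofReal ε' * ENNReal.ofReal Cμ) *
        ENNReal.ofReal (m₂ : ℝ) * c.ν (B.Bx fun i => B.C⁻¹ * (a * R i)) := by
        rw [ENNReal.ofReal_natCast, mul_assoc]
    _ ≤ ENNReal.ofReal ε * c.ν (B.Bx fun i => B.C⁻¹ * (a * R i)) := by
        refine mul_le_mul' ?_ le_rfl
        rw [← ENNReal.ofReal_mul hε'0.le, ← ENNReal.ofReal_add (Real.exp_pos _).le (by positivity),
          ← ENNReal.ofReal_mul (by positivity)]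
        refine ENNReal.ofReal_le_ofReal ?_
        have h9 : Real.exp (-(c₃ * s)) * m₂ ≤ ε / 2 := by
          rw [Real.exp_neg]
          have h10 : 2 * (m₂ : ℝ) ≤ ε * Real.exp (c₃ * s) := by
            rw [div_le_iff₀ hε] at hs2; linarith
          rw [inv_mul_le_iff₀ (Real.exp_pos _)]
          linarith
        linarith

end Vale.Agent.P188.H235
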