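import Vale.Agent.P188.H235.NfGeom
import Vale.Agent.P188.Z1.Neut2
import Vale.Agent.P188.Z1.Lab4

/-!
# P188, route A, block hinput: neutral displacements on the boxes of `E`
-/

set_option linter.all false

open MeasureTheory Set Filter Topology
open scoped ENNReal
open Vale.Agent.P188.H530 (hgt)
open Vale.Agent.P188.Z1

namespace Vale.Agent.P188.H235

variable {S : Type} [Group S] [MeasurableSpace S] {Γ : Type} [Group Γ]
  {V : Type} [AddCommGroup V] [Module ℝ V] {k : ℕ} {M : RModel S Γ V k}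

theorem szh_pos' (h : (Z1.Ht k →L[ℝ] ℝ) → ℝ) (d₁ s : ℝ) (i : M.ι) : 0 < M.szh h d₁ s i := by
  unfold RModel.szh
  split_ifs <;> positivity

theorem adm_szh {c₂ : ℝ} {h : (Z1.Ht k →L[ℝ] ℝ) → ℝ} (hc₂ : 0 < c₂) (hh : M.HGood c₂ h)
    {d₁ s : ℝ} (h1 : 0 ≤ d₁) (h2 : 0 ≤ s) (h3 : d₁ ≤ c₂) : M.Adm (M.szh h d₁ s) := by
  have := Lab.adm_szt (M := M) (s := s) (t := 0) (d₁ := d₁) hc₂ hh (by positivity) h2
    (by rw [sub_zero, sub_zero, mul_comm]; exact mul_le_mul_of_nonneg_left h3 h2)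
  have e : Lab.szt M h d₁ s 0 = M.szh h d₁ s := by
    funext i
    unfold Lab.szt RModel.szh
    rw [sub_zero, sub_zero]
  rwa [e] at this

theorem adm_scale {R : M.ι → ℝ} (h : M.Adm R) {a : ℝ} (ha : 1 ≤ a) (w : Z1.Ht k) :
    M.Adm fun i => a * Real.exp (M.wt i w) * R i := by
  refine ⟨fun i => by have := h.pos i; positivity, fun i L hL hs => ?_⟩
  have h1 := h.le i L hL hs
  have h2 : ∀ L : List M.ι, (L.map fun i => a * Real.exp (M.wt i w) * R i).prod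
      = a ^ L.length * Real.exp ((L.map M.wt).sum w) * (L.map R).prod := by
    intro L
    induction L with
    | nil => simp
    | cons i L ih =>
      simp only [List.map_cons, List.prod_cons, ih, List.length_cons, List.sum_cons,
        ContinuousLinearMap.add_apply, Real.exp_add, pow_succ]
      ring
  rw [h2, hs]
  have h3 : a ≤ a ^ L.length := le_self_pow₀ ha (by simpa using hL)
  have h4 := h.pos i
  exact mul_le_mul (mul_le_mul_of_nonneg_right h3 (Real.exp_pos _).le) h1 h4.le (by positivity)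

theorem conj_box (B : M.NatBox) {R R' : M.ι → ℝ} (hR : M.Adm R) {n : ℕ} {g : S}
    (hg : g ∈ M.CB n)
    (h : ∀ i, B.C * (1 + n) ^ B.dg * Real.exp (M.wt i (M.θ g)) * R i ≤ R' i) {x : S}
    (hx : x ∈ B.Bx R) : g * x * g⁻¹ ∈ B.Bx R' := by
  have hC := B.one_le
  exact B.mono _ _ (fun i => by have := hR.pos i; positivity) h (B.conj n g hg R hR x hx)

/-- bound of the weights -/
theorem wt_bd (M : RModel S Γ V k) : ∃ Kφ : ℝ, 0 ≤ Kφ ∧ ∀ b ∈ M.Φ, ∀ x : Z1.Ht k, |b x| ≤ Kφ * ‖x‖ := by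
  refine ⟨∑ b ∈ M.Φ, ‖b‖, Finset.sum_nonneg fun b _ => norm_nonneg _, fun b hb x => ?_⟩
  refine (b.le_opNorm x).trans (mul_le_mul_of_nonneg_right ?_ (norm_nonneg _))
  exact Finset.single_le_sum (f := fun b => ‖b‖) (fun b _ => norm_nonneg _) hb

open Classical in
/-- sizes with tiny neutral part -/
noncomputable def szn (M : RModel S Γ V k) (h : (Z1.Ht k →L[ℝ] ℝ) → ℝ) (t s : ℝ) (i : M.ι) : ℝ :=
  if M.wt i = 0 then Real.exp (-t) else Real.exp (s * h (M.wt i))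

theorem szn_pos (h : (Z1.Ht k →L[ℝ] ℝ) → ℝ) (t s : ℝ) (i : M.ι) : 0 < szn M h t s i := by
  unfold szn
  split_ifs <;> positivity

/-- the window seen from `g` -/
theorem nf_window (B : M.NatBox) {c₂ A : ℝ} (hc₂ : 0 < c₂) (hA : 0 ≤ A) : ∃ cw : ℝ, 0 < cw ∧
    ∀ d₁ : ℝ, 0 < d₁ → d₁ ≤ c₂ → d₁ ≤ 1 → ∀ᶠ s : ℝ in atTop,
      ∀ h : (Z1.Ht k →L[ℝ] ℝ) → ℝ, M.HGood c₂ h →
      ∀ n : ℕ, (n : ℝ) ≤ A * s → ∀ g ∈ M.CB n, (∀ b ∈ M.Φ, b (M.θ g) ≤ 1 / 2 * s * h b) →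
      ∃ h' : (Z1.Ht k →L[ℝ] ℝ) → ℝ, M.HB cw h' ∧
        (∀ x ∈ B.Bx (fun i => B.C ^ (B.m + 3) * M.szh h d₁ s i),
          g⁻¹ * x * g ∈ B.Bx (M.szh h' (2 * d₁) s)) ∧
        ∀ x ∈ B.Bx (M.szh h' (2 * d₁) s),
          g * x * g⁻¹ ∈ B.Bx (fun i => Real.exp (2 * d₁ * s) * M.szh h d₁ s i) := by
  classical
  have hC0 := M.one_le_C0
  have hBC := B.one_le
  have hBC0 : 0 < B.C := by linarith
  obtain ⟨Kφ, hKφ, hφ⟩ := wt_bd M
  obtain ⟨Cl, hCl, hl⟩ := M.l_CB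
  set cw : ℝ := min (c₂ / 2) (c₂⁻¹ + Kφ * (M.C0 * (Cl * A)) + 1)⁻¹ with hcw
  have hpos1 : 0 < c₂⁻¹ + Kφ * (M.C0 * (Cl * A)) + 1 := by positivity
  have hcw0 : 0 < cw := lt_min (by positivity) (by positivity)
  refine ⟨cw, hcw0, fun d₁ hd₁ hd2 hd3 => ?_⟩
  filter_upwards [eventually_ge_atTop (1 : ℝ),
    ev_poly (B.C * (1 + A) ^ B.dg * B.C ^ (B.m + 3)) B.dg hd₁] with s hs1 hs2
  intro h hh n hn g hg hgh
  have hs0 : 0 < s := by linarith
  have hds : 0 < d₁ * s := by positivity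
  -- polynomial factors
  have hpoly : B.C * (1 + (n : ℝ)) ^ B.dg * B.C ^ (B.m + 3) ≤ Real.exp (d₁ * s) := by
    refine le_trans ?_ hs2
    have h1 : (1 + (n : ℝ)) ^ B.dg ≤ ((1 + A) * (1 + s)) ^ B.dg := by
      refine pow_le_pow_left₀ (by positivity) ?_ _
      nlinarith
    calc B.C * (1 + (n : ℝ)) ^ B.dg * B.C ^ (B.m + 3)
        ≤ B.C * ((1 + A) * (1 + s)) ^ B.dg * B.C ^ (B.m + 3) := by gcongr
      _ = _ := by rw [mul_pow]; ring
  have hpoly1 : B.C * (1 + (n : ℝ)) ^ B.dg ≤ Real.exp (d₁ * s) := by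
    refine le_trans ?_ hpoly
    exact le_mul_of_one_le_right (by positivity) (one_le_pow₀ hBC)
  -- the window at `g`
  set h' : (Z1.Ht k →L[ℝ] ℝ) → ℝ := fun b => h b - b (M.θ g) / s + d₁ with hh'
  have hθg : ‖M.θ g‖ ≤ M.C0 * (Cl * A) * s := by
    calc ‖M.θ g‖ ≤ M.C0 * M.l g := M.θ_le g
      _ ≤ M.C0 * (Cl * (A * s)) := by
          refine mul_le_mul_of_nonneg_left ((hl n g hg).trans ?_) (by linarith)
          exact mul_le_mul_of_nonneg_left hn (by linarith)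
      _ = _ := by ring
  have hHB : M.HB cw h' := by
    intro b hb
    obtain ⟨hb1, hb2⟩ := hh.bd b hb
    have h1 := hgh b hb
    have h2 : b (M.θ g) / s ≤ 1 / 2 * h b := by
      rw [div_le_iff₀ hs0]; linarith
    have h3 : -(Kφ * (M.C0 * (Cl * A))) ≤ b (M.θ g) / s := by
      rw [le_div_iff₀ hs0]
      have h4 := hφ b hb (M.θ g)
      have h5 := (abs_le.1 h4).1
      have h6 := mul_le_mul_of_nonneg_left hθg hKφ
      linarith
    constructor
    · refine (min_le_left _ _).trans ?_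
      show c₂ / 2 ≤ h b - b (M.θ g) / s + d₁
      linarith
    · show h b - b (M.θ g) / s + d₁ ≤ cw⁻¹
      have h4 : cw ≤ (c₂⁻¹ + Kφ * (M.C0 * (Cl * A)) + 1)⁻¹ := min_le_right _ _
      have h5 : c₂⁻¹ + Kφ * (M.C0 * (Cl * A)) + 1 ≤ cw⁻¹ := by
        rw [le_inv_comm₀ hpos1 hcw0]; exact h4
      linarith
  -- sizes
  set R : M.ι → ℝ := M.szh h d₁ s with hR
  have hR0 : ∀ i, 0 < R i := szh_pos' h d₁ s
  have hadm : M.Adm R := adm_szh hc₂ hh hd₁.le hs0.le hd2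
  have hRc : ∀ i, M.szh h' (2 * d₁) s i =
      Real.exp (d₁ * s) * Real.exp (M.wt i (-M.θ g)) * R i := by
    intro i
    rw [hR]
    unfold RModel.szh
    split_ifs with hi
    · rw [hi, ContinuousLinearMap.zero_apply, Real.exp_zero, mul_one, ← Real.exp_add]
      congr 1; ring
    · rw [← Real.exp_add, ← Real.exp_add]
      congr 1
      rw [hh', map_neg]
      field_simp
      ring
  have hRceq : M.szh h' (2 * d₁) s =
      fun i => Real.exp (d₁ * s) * Real.exp (M.wt i (-M.θ g)) * R i := funext hRc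
  have hexp1 : 1 ≤ Real.exp (d₁ * s) := Real.one_le_exp hds.le
  have hadmc : M.Adm (M.szh h' (2 * d₁) s) := by
    rw [hRceq]; exact adm_scale hadm hexp1 _
  have hadmB : M.Adm fun i => B.C ^ (B.m + 3) * R i := by
    have := adm_scale hadm (one_le_pow₀ hBC : 1 ≤ B.C ^ (B.m + 3)) 0
    simpa using this
  refine ⟨h', hHB, ?_, ?_⟩
  · intro x hx
    have h1 := conj_box B hadmB (M.CB_inv hg) (R' := M.szh h' (2 * d₁) s) ?_ hx
    · rwa [inv_inv] at h1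
    · intro i
      rw [hRc, M.θ_inv]
      have h2 := hR0 i
      calc B.C * (1 + (n : ℝ)) ^ B.dg * Real.exp (M.wt i (-M.θ g)) * (B.C ^ (B.m + 3) * R i)
          = (B.C * (1 + (n : ℝ)) ^ B.dg * B.C ^ (B.m + 3)) * (Real.exp (M.wt i (-M.θ g)) * R i) := by
            ring
        _ ≤ Real.exp (d₁ * s) * (Real.exp (M.wt i (-M.θ g)) * R i) :=
            mul_le_mul_of_nonneg_right hpoly (by positivity)
        _ = _ := by ring
  · intro x hx
    refine conj_box B hadmc hg ?_ hx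
    intro i
    rw [hRc]
    have h2 := hR0 i
    have h3 : Real.exp (M.wt i (M.θ g)) * Real.exp (M.wt i (-M.θ g)) = 1 := by
      rw [← Real.exp_add, map_neg, add_neg_cancel, Real.exp_zero]
    calc B.C * (1 + (n : ℝ)) ^ B.dg * Real.exp (M.wt i (M.θ g)) *
          (Real.exp (d₁ * s) * Real.exp (M.wt i (-M.θ g)) * R i)
        = (B.C * (1 + (n : ℝ)) ^ B.dg) * Real.exp (d₁ * s) * R i *
          (Real.exp (M.wt i (M.θ g)) * Real.exp (M.wt i (-M.θ g))) := by ring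
      _ = (B.C * (1 + (n : ℝ)) ^ B.dg) * Real.exp (d₁ * s) * R i := by rw [h3, mul_one]
      _ ≤ Real.exp (d₁ * s) * Real.exp (d₁ * s) * R i := by gcongr
      _ = _ := by rw [← Real.exp_add]; congr 2; ring

/-- perturbation of the displacement -/
theorem nf_disp {B : M.NatBox} {K κ s : ℝ} (hκ : 0 < κ)
    (hs : (M.C0 * K * (2 * M.C0 + 1) * (B.m * (2 * M.C0) + 1)) * 4 / κ ≤ s) {F F' : Γ → Γ}
    (hF : M.QIm K F F') (Y x g : S) (L Lu : List (M.ι × ℝ)) {y : V}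
    (hexy : M.ex y = g⁻¹ * lp M L * g) (hLu : Lu.length ≤ B.m)
    (ht : ∀ p ∈ Lu, M.nm (M.Ad g⁻¹ (p.2 • M.X p.1)) ≤ 1 ∧
      M.nm (M.Ad (lp M L * g)⁻¹ (p.2 • M.X p.1)) ≤ 1)
    (hx : κ * s < ‖M.f F (Y * (x * lp M L * g)) - M.f F (Y * (x * g))‖) :
    κ / 2 * s < ‖M.f F (Y * g * (g⁻¹ * (x * lp M Lu) * g * M.ex y)) -
        M.f F (Y * g * (g⁻¹ * (x * lp M Lu) * g))‖ := by
  have hC0 := M.one_le_C0
  have e1 : Y * g * (g⁻¹ * (x * lp M Lu) * g * M.ex y) =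
      Y * (x * lp M L * g) * ((lp M L * g)⁻¹ * lp M Lu * (lp M L * g)⁻¹⁻¹) := by
    rw [hexy]; group
  have e2 : Y * g * (g⁻¹ * (x * lp M Lu) * g) =
      Y * (x * g) * (g⁻¹ * lp M Lu * g⁻¹⁻¹) := by group
  have l1 := len_conj (lp M L * g)⁻¹ Lu fun p hp => (ht p hp).2
  have l2 := len_conj g⁻¹ Lu fun p hp => (ht p hp).1
  have hLu' : (Lu.length : ℝ) * (2 * M.C0) ≤ B.m * (2 * M.C0) :=
    mul_le_mul_of_nonneg_right (by exact_mod_cast hLu) (by linarith)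
  have hKn := hF.K_nonneg
  have hcst : 0 ≤ M.C0 * K * (2 * M.C0 + 1) := by positivity
  rw [div_le_iff₀ hκ] at hs
  have f1 : ‖M.f F (Y * (x * lp M L * g) * ((lp M L * g)⁻¹ * lp M Lu * (lp M L * g)⁻¹⁻¹)) -
      M.f F (Y * (x * lp M L * g))‖ ≤ κ / 4 * s := by
    refine (hF.f_lip _ _).trans ?_
    have h5 := mul_le_mul_of_nonneg_left (show (M.l ((lp M L * g)⁻¹ * lp M Lu *
      (lp M L * g)⁻¹⁻¹) : ℝ) + 1 ≤ B.m * (2 * M.C0) + 1 by linarith) hcst
    linarith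
  have f2 : ‖M.f F (Y * (x * g) * (g⁻¹ * lp M Lu * g⁻¹⁻¹)) - M.f F (Y * (x * g))‖ ≤
      κ / 4 * s := by
    refine (hF.f_lip _ _).trans ?_
    have h5 := mul_le_mul_of_nonneg_left (show (M.l (g⁻¹ * lp M Lu * g⁻¹⁻¹) : ℝ) + 1 ≤
      B.m * (2 * M.C0) + 1 by linarith) hcst
    linarith
  rw [e1, e2]
  generalize M.f F (Y * (x * lp M L * g) * ((lp M L * g)⁻¹ * lp M Lu * (lp M L * g)⁻¹⁻¹)) = a at *
  generalize M.f F (Y * (x * g) * (g⁻¹ * lp M Lu * g⁻¹⁻¹)) = b at *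
  generalize M.f F (Y * (x * lp M L * g)) = a' at *
  generalize M.f F (Y * (x * g)) = b' at *
  have h7 : a' - b' = (a - b) - (a - a') + (b - b') := by abel
  have h6 : ‖a' - b'‖ ≤ ‖a - b‖ + κ / 4 * s + κ / 4 * s := by
    rw [h7]
    exact (norm_add_le _ _).trans (add_le_add ((norm_sub_le _ _).trans (add_le_add le_rfl f1)) f2)
  linarith

/-- **Neutral displacements on the boxes of `E`.** -/
theorem nfE {B : M.NatBox} {d : ℕ} (c : EChart M B d) (hN : M.NEUT B) {K c₂ κ A : ℝ}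
    (hc₂ : 0 < c₂) (hκ : 0 < κ) (hA : 0 ≤ A) :
    ∃ c₁ : ℝ, 0 < c₁ ∧ ∃ dm : ℝ, 0 < dm ∧ ∀ d₁ : ℝ, 0 < d₁ → d₁ ≤ dm → ∀ᶠ s : ℝ in atTop,
      ∀ h : (Z1.Ht k →L[ℝ] ℝ) → ℝ, M.HGood c₂ h → ∀ F F' : Γ → Γ, M.QIm K F F' → ∀ Y : S,
      ∀ n : ℕ, (n : ℝ) ≤ A * s → ∀ g ∈ M.CB n, (∀ b ∈ M.Φ, b (M.θ g) ≤ 1 / 2 * s * h b) →
      ∀ L : List (M.ι × ℝ), L.length ≤ B.m →
      (∀ p ∈ L, M.wt p.1 = 0 ∧ |p.2| ≤ B.C * Real.exp (d₁ * s)) →
      c.ν {x | x ∈ B.Bx (M.szh h d₁ s) ∧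
        κ * s < ‖M.f F (Y * (x * lp M L * g)) - M.f F (Y * (x * g))‖} ≤
        ENNReal.ofReal (Real.exp (-(c₁ * s))) * c.ν (B.Bx (M.szh h d₁ s)) := by
  classical
  haveI := M.mm
  haveI := M.mi
  have hC0 := M.one_le_C0
  have hBC := B.one_le
  have hBC0 : 0 < B.C := by linarith
  obtain ⟨Cg, hCg, hgeo⟩ := nf_geom B A hA
  obtain ⟨Cv, D, hCv, hvol⟩ := mu_poly B
  obtain ⟨m₁, hm₁, hm₁'⟩ := c.nu_dbl B.C hBC
  obtain ⟨cw, hcw0, hwin⟩ := nf_window B hc₂ hA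
  obtain ⟨c₁, hc₁, hNE⟩ := hN K cw (κ / 2) 1 hcw0 (by positivity) one_pos
  obtain ⟨dm, hdm, hNE⟩ := hNE Cg
  refine ⟨c₁ / 2, by positivity, min (min (dm / 2) c₂) (min 1 (c₁ / (4 * (D + 1) * (Cg + 3)))),
    lt_min (lt_min (by positivity) hc₂) (lt_min one_pos (by positivity)), ?_⟩
  intro d₁ hd₁ hd₁m
  have hd1 : 2 * d₁ ≤ dm := by
    have := hd₁m.trans ((min_le_left _ _).trans (min_le_left _ _)); linarith
  have hd2 : d₁ ≤ c₂ := hd₁m.trans ((min_le_left _ _).trans (min_le_right _ _))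
  have hd3 : d₁ ≤ 1 := hd₁m.trans ((min_le_right _ _).trans (min_le_left _ _))
  have hd4 : D * ((Cg + 3) * d₁) ≤ c₁ / 4 := by
    have h1 := hd₁m.trans ((min_le_right _ _).trans (min_le_right _ _))
    rw [le_div_iff₀ (by positivity)] at h1
    have h2 : 0 ≤ (Cg + 3) * d₁ := by positivity
    nlinarith
  obtain ⟨s₀, hs₀⟩ := hNE (2 * d₁) (by positivity) hd1
  filter_upwards [hgeo d₁ hd₁, eventually_ge_atTop s₀, eventually_ge_atTop (1 : ℝ),
    hwin d₁ hd₁ hd2 hd3,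
    ev_const (m₁ * Cv) (show 0 < c₁ / 4 by positivity),
    eventually_ge_atTop ((M.C0 * K * (2 * M.C0 + 1) * (B.m * (2 * M.C0) + 1)) * 4 / κ)]
    with s hgeo' hss₀ hs1 hwin' hs3 hs4
  intro h hh F F' hF Y n hn g hg hgh L hL hLp
  have hs0 : 0 < s := by linarith
  have hds : 0 < d₁ * s := by positivity
  have hCgd : 0 ≤ Cg * d₁ * s := by positivity
  obtain ⟨y₀, hy₀, hye, -, hyg, hygn, htiny⟩ := hgeo' n hn g hg L hL hLp
  obtain ⟨h', hHB, hcj1, hcj2⟩ := hwin' h hh n hn g hg hgh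
  -- sizes
  obtain ⟨R, hR⟩ : ∃ R : M.ι → ℝ, R = M.szh h d₁ s := ⟨_, rfl⟩
  rw [← hR] at hcj1 hcj2 ⊢
  have hR0 : ∀ i, 0 < R i := by rw [hR]; exact szh_pos' h d₁ s
  -- NEUT
  obtain ⟨y, hy⟩ : ∃ y : V, y = M.Ad g⁻¹ y₀ := ⟨_, rfl⟩
  rw [← hy] at hyg hygn
  have hexy : M.ex y = g⁻¹ * lp M L * g := by rw [hy, M.ex_Ad, hye, inv_inv]
  have hbad := hs₀ s hss₀ h' hHB F F' hF (Y * g) y hyg (by
    refine hygn.trans (Real.exp_le_exp.2 ?_)
    linarith)
  set Bad : Set S := {n | n ∈ B.Bx (fun i => 1 * M.szh h' (2 * d₁) s i) ∧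
    κ / 2 * s < ‖M.f F (Y * g * (n * M.ex y)) - M.f F (Y * g * n)‖} with hBad
  have hBadm : MeasurableSet Bad := by
    refine (B.meas _).inter (measurableSet_lt measurable_const (Measurable.norm ?_))
    refine ((M.measurable_f F).comp ?_).sub ((M.measurable_f F).comp ?_)
    · exact (measurable_id.mul_const _).const_mul _
    · exact measurable_id.const_mul _
  set Aset : Set S := {x | g⁻¹ * x * g ∈ Bad} with hAset
  have hAm : MeasurableSet Aset := ((measurable_const_mul g⁻¹).mul_const g) hBadm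
  have hμA : M.μ Aset = M.μ Bad := by
    have h1 : Aset = (fun x => g⁻¹ * x) ⁻¹' ((fun x => x * g) ⁻¹' Bad) := rfl
    rw [h1, (M.mpl g⁻¹).measure_preimage (((M.mp g).measurable hBadm)).nullMeasurableSet,
      (M.mp g).measure_preimage hBadm.nullMeasurableSet]
  -- the thickening
  obtain ⟨RU, hRU⟩ : ∃ RU : M.ι → ℝ, RU = szn M h (Cg * d₁ * s) s := ⟨_, rfl⟩
  have hRU0 : ∀ i, 0 < RU i := by rw [hRU]; exact szn_pos h _ s
  have hRUle : ∀ i, RU i ≤ R i := by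
    intro i
    rw [hRU, hR]
    unfold szn RModel.szh
    split_ifs
    · apply Real.exp_le_exp.2
      linarith
    · exact le_rfl
  have hRUge : ∀ i, Real.exp (2 * d₁ * s) * R i ≤ Real.exp ((Cg + 3) * d₁ * s) * RU i := by
    intro i
    rw [hRU, hR]
    unfold szn RModel.szh
    split_ifs
    · rw [← Real.exp_add, ← Real.exp_add]
      apply Real.exp_le_exp.2
      apply le_of_eq; ring
    · refine mul_le_mul_of_nonneg_right (Real.exp_le_exp.2 ?_) (Real.exp_pos _).le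
      linarith
  set A₀ : Set S := {x | x ∈ B.Bx R ∧
    κ * s < ‖M.f F (Y * (x * lp M L * g)) - M.f F (Y * (x * g))‖} with hA₀
  have hlow : c.ν A₀ * M.μ (B.Bx RU) ≤ c.ν (B.Bx fun i => B.C * RU i) * M.μ Aset := by
    refine c.emeas.low M.mpl (B.meas _) hAm (fun x => c.sup_le (fun i => (hRU0 i).le) x) ?_
    intro u hu
    obtain ⟨e, he, Lu, hLu, hLup, hue, hlpu, -⟩ := split B (fun i => (hRU0 i).le) hu
    have hpre : {x | x * u ∈ Aset} = (fun x => x * e) ⁻¹' {x | x * lp M Lu ∈ Aset} := by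
      ext x
      show x * u ∈ Aset ↔ x * e * lp M Lu ∈ Aset
      rw [hue, mul_assoc]
    have hm2 : MeasurableSet {x | x * lp M Lu ∈ Aset} := (measurable_mul_const (lp M Lu)) hAm
    rw [hpre, (c.emeas.mpr e he).measure_preimage hm2.nullMeasurableSet]
    refine measure_mono fun x hx => ?_
    obtain ⟨hx1, hx2⟩ := hx
    -- in the box
    have hxl : x * lp M Lu ∈ B.Bx fun i => B.C ^ (B.m + 3) * R i := by
      have h1 : lp M Lu ∈ B.Bx fun i => B.C ^ (B.m + 1) * R i :=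
        bx_mono B (fun i => by have := hRU0 i; positivity)
          (fun i => mul_le_mul_of_nonneg_left (hRUle i) (by positivity)) hlpu
      have h2 : x ∈ B.Bx fun i => 1 * R i := by simpa using hx1
      refine bx_mul B (fun i => (hR0 i).le) zero_le_one (by positivity) ?_ ?_ h2 h1
      · rw [mul_one]
        calc B.C = B.C ^ 1 := by ring
          _ ≤ B.C ^ (B.m + 3) := pow_le_pow_right₀ hBC (by omega)
      · calc B.C * B.C ^ (B.m + 1) = B.C ^ (B.m + 2) := by ring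
          _ ≤ B.C ^ (B.m + 3) := pow_le_pow_right₀ hBC (by omega)
    have ht := htiny Lu fun p hp => by
      obtain ⟨hp1, hp2⟩ := hLup p hp
      refine ⟨hp1, ?_⟩
      have : RU p.1 = Real.exp (-(Cg * d₁ * s)) := by rw [hRU]; unfold szn; rw [if_pos hp1]
      rw [this] at hp2
      exact hp2
    refine ⟨?_, nf_disp hκ hs4 hF Y x g L Lu hexy hLu ht hx2⟩
    have := hcj1 _ hxl
    simpa using this
  -- conclusion
  have hμB : M.μ Aset ≤ ENNReal.ofReal (Real.exp (-(c₁ * s))) *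
      (ENNReal.ofReal (Cv * Real.exp ((Cg + 3) * d₁ * s) ^ D) * M.μ (B.Bx RU)) := by
    rw [hμA]
    refine hbad.trans (mul_le_mul' le_rfl ?_)
    have h1 : M.μ (B.Bx (M.szh h' (2 * d₁) s)) ≤
        M.μ (B.Bx fun i => Real.exp (2 * d₁ * s) * R i) := by
      have h2 : M.μ (B.Bx (M.szh h' (2 * d₁) s)) =
          M.μ ((fun x => g⁻¹ * x) ⁻¹' ((fun x => x * g) ⁻¹' (B.Bx (M.szh h' (2 * d₁) s)))) := by
        rw [(M.mpl g⁻¹).measure_preimage (((M.mp g).measurable (B.meas _))).nullMeasurableSet,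
          (M.mp g).measure_preimage (B.meas _).nullMeasurableSet]
      rw [h2]
      refine measure_mono fun x hx => ?_
      have h3 := hcj2 _ hx
      have e : g * (g⁻¹ * x * g) * g⁻¹ = x := by group
      rwa [e] at h3
    refine h1.trans (le_trans (measure_mono fun x hx => ?_)
      (hvol (Real.exp ((Cg + 3) * d₁ * s)) (Real.one_le_exp (by positivity)) RU hRU0))
    exact bx_mono B (fun i => by have := hR0 i; positivity) hRUge hx
  have hHle : c.ν (B.Bx fun i => B.C * RU i) ≤ m₁ * c.ν (B.Bx R) := by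
    refine le_trans (measure_mono fun x hx => ?_) (hm₁' R hR0)
    exact bx_mono B (fun i => by have := hRU0 i; positivity)
      (fun i => mul_le_mul_of_nonneg_left (hRUle i) hBC0.le) hx
  have hnum : (m₁ : ℝ) * (Real.exp (-(c₁ * s)) * (Cv * Real.exp ((Cg + 3) * d₁ * s) ^ D)) ≤
      Real.exp (-(c₁ / 2 * s)) := by
    have h1 : Real.exp ((Cg + 3) * d₁ * s) ^ D ≤ Real.exp (c₁ / 4 * s) := by
      rw [← Real.exp_nat_mul]
      apply Real.exp_le_exp.2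
      have := mul_le_mul_of_nonneg_right hd4 hs0.le
      linarith
    calc (m₁ : ℝ) * (Real.exp (-(c₁ * s)) * (Cv * Real.exp ((Cg + 3) * d₁ * s) ^ D))
        ≤ m₁ * (Real.exp (-(c₁ * s)) * (Cv * Real.exp (c₁ / 4 * s))) := by gcongr
      _ = (m₁ * Cv) * (Real.exp (-(c₁ * s)) * Real.exp (c₁ / 4 * s)) := by ring
      _ ≤ Real.exp (c₁ / 4 * s) * (Real.exp (-(c₁ * s)) * Real.exp (c₁ / 4 * s)) := by
          gcongr
      _ = Real.exp (-(c₁ / 2 * s)) := by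
          rw [← Real.exp_add, ← Real.exp_add]; congr 1; ring
  have hfin : c.ν A₀ * M.μ (B.Bx RU) ≤
      (ENNReal.ofReal (Real.exp (-(c₁ / 2 * s))) * c.ν (B.Bx R)) * M.μ (B.Bx RU) := by
    calc c.ν A₀ * M.μ (B.Bx RU) ≤ c.ν (B.Bx fun i => B.C * RU i) * M.μ Aset := hlow
      _ ≤ (m₁ * c.ν (B.Bx R)) * (ENNReal.ofReal (Real.exp (-(c₁ * s))) *
          (ENNReal.ofReal (Cv * Real.exp ((Cg + 3) * d₁ * s) ^ D) * M.μ (B.Bx RU))) :=
          mul_le_mul' hHle hμB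
      _ = (ENNReal.ofReal (m₁ : ℝ) * (ENNReal.ofReal (Real.exp (-(c₁ * s))) *
          ENNReal.ofReal (Cv * Real.exp ((Cg + 3) * d₁ * s) ^ D))) * c.ν (B.Bx R) *
          M.μ (B.Bx RU) := by
          rw [ENNReal.ofReal_natCast]; ring
      _ ≤ _ := by
          refine mul_le_mul' (mul_le_mul' ?_ le_rfl) le_rfl
          rw [← ENNReal.ofReal_mul (Real.exp_pos _).le, ← ENNReal.ofReal_mul (by positivity)]
          exact ENNReal.ofReal_le_ofReal hnum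
  exact (ENNReal.mul_le_mul_iff_left (B.pos _ hRU0) (B.fin _)).1 hfin

end Vale.Agent.P188.H235
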