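import Vale.Agent.P188.H235.Split

/-!
# P188, route A, block hinput: neutral words, Cartan words, translates of fat sets
-/

set_option linter.all false

open MeasureTheory Set Filter Topology
open scoped ENNReal
open Vale.Agent.P188.H530 (hgt)
open Vale.Agent.P188.H540 (vec LP tendsto_LP)
open Vale.Agent.P188.Z1

namespace Vale.Agent.P188.H235

variable {S : Type} [Group S] [MeasurableSpace S] {Γ : Type} [Group Γ]
  {V : Type} [AddCommGroup V] [Module ℝ V] {k : ℕ} {M : RModel S Γ V k}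

/-- the size of a polynomial in an exponential -/
theorem rpow_exp_le {C t : ℝ} (hC : 0 ≤ C) (ht : 0 ≤ t) {x : ℝ} (hx0 : 0 ≤ x) (hx : x ≤ Real.exp t) :
    (1 + x) ^ C ≤ Real.exp (C * (t + 1)) := by
  have h1 : 1 + x ≤ Real.exp (t + 1) := by
    rw [Real.exp_add]
    have h2 : (2 : ℝ) ≤ Real.exp 1 := by have := Real.add_one_le_exp (1 : ℝ); linarith
    have h3 := Real.one_le_exp ht
    nlinarith
  calc (1 + x) ^ C ≤ (Real.exp (t + 1)) ^ C := Real.rpow_le_rpow (by linarith) h1 hC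
    _ = Real.exp (C * (t + 1)) := by rw [← Real.exp_mul, mul_comm]

/-- **Geometry of the neutral displacement.** -/
theorem nf_geom (B : M.NatBox) (A : ℝ) (hA : 0 ≤ A) : ∃ C : ℝ, 1 ≤ C ∧ ∀ d₁ : ℝ, 0 < d₁ →
    ∀ᶠ s : ℝ in atTop, ∀ n : ℕ, (n : ℝ) ≤ A * s → ∀ g ∈ M.CB n, ∀ L : List (M.ι × ℝ),
    L.length ≤ B.m → (∀ p ∈ L, M.wt p.1 = 0 ∧ |p.2| ≤ B.C * Real.exp (d₁ * s)) →
    ∃ y₀ ∈ M.Vw 0, M.ex y₀ = lp M L ∧ M.nm y₀ ≤ Real.exp (C * d₁ * s) ∧
      M.Ad g⁻¹ y₀ ∈ M.Vw 0 ∧ M.nm (M.Ad g⁻¹ y₀) ≤ Real.exp (C * d₁ * s) ∧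
      (∀ L₁ : List (M.ι × ℝ), (∀ p ∈ L₁, M.wt p.1 = 0 ∧
          |p.2| ≤ B.C * Real.exp (-(C * d₁ * s))) →
        ∀ p ∈ L₁, M.nm (M.Ad g⁻¹ (p.2 • M.X p.1)) ≤ 1 ∧
          M.nm (M.Ad (lp M L * g)⁻¹ (p.2 • M.X p.1)) ≤ 1) := by
  obtain ⟨Cw, hCw, hw⟩ := neutral_word M B.m
  have hC0 := M.one_le_C0
  have hBC := B.one_le
  set C : ℝ := 2 * Cw * (M.C0 + 1) + M.C0 + 3 with hC
  have hC1 : 1 ≤ C := by rw [hC]; nlinarith
  refine ⟨C, hC1, fun d₁ hd => ?_⟩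
  -- constants
  filter_upwards [hw (2 * d₁) (by positivity), eventually_ge_atTop (1 : ℝ),
    ev_const B.C hd, ev_poly (M.C0 * (1 + A) ^ M.deg) M.deg hd,
    ev_const (M.C0 * Real.exp M.C0 * B.C) hd] with s hw' hs1 hs2 hs3 hs4
  have hs0 : 0 ≤ s := by linarith
  have hds : 0 ≤ d₁ * s := by positivity
  intro n hn g hg L hL hp
  -- Cartan words
  have hpoly : ∀ m : ℕ, (m : ℝ) ≤ A * s → M.C0 * (1 + (m : ℝ)) ^ M.deg ≤ Real.exp (d₁ * s) := by
    intro m hm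
    refine le_trans ?_ hs3
    rw [mul_assoc, ← mul_pow]
    refine mul_le_mul_of_nonneg_left (pow_le_pow_left₀ (by positivity) ?_ _) (by linarith)
    nlinarith
  have hgi := M.CB_inv hg
  have hadg : ∀ v ∈ M.Vw 0, M.Ad g⁻¹ v ∈ M.Vw 0 ∧
      M.nm (M.Ad g⁻¹ v) ≤ Real.exp (d₁ * s) * M.nm v := by
    intro v hv
    refine ⟨M.Ad_CB hgi hv, (M.Ad_CB_0 hgi hv).trans ?_⟩
    exact mul_le_mul_of_nonneg_right (hpoly n hn) (M.nm_nonneg _)
  obtain ⟨y₀, hy₀, hye, hyn⟩ := hw' L hL fun p hpL => by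
    obtain ⟨h1, h2⟩ := hp p hpL
    refine ⟨h1, h2.trans ?_⟩
    calc B.C * Real.exp (d₁ * s) ≤ Real.exp (d₁ * s) * Real.exp (d₁ * s) :=
          mul_le_mul_of_nonneg_right hs2 (Real.exp_pos _).le
      _ = Real.exp (2 * d₁ * s) := by rw [← Real.exp_add]; congr 1; ring
  have hCwd : 0 ≤ Cw * (d₁ * s) := by positivity
  have hC0d : 0 ≤ M.C0 * (d₁ * s) := by positivity
  have hCwC0 : 0 ≤ Cw * M.C0 * (d₁ * s) := by positivity
  have hyn2 : M.nm y₀ ≤ Real.exp (C * d₁ * s) := by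
    refine hyn.trans (Real.exp_le_exp.2 ?_)
    rw [hC]; nlinarith
  refine ⟨y₀, hy₀, hye, hyn2, (hadg y₀ hy₀).1, ?_, ?_⟩
  · refine (hadg y₀ hy₀).2.trans ?_
    calc Real.exp (d₁ * s) * M.nm y₀ ≤ Real.exp (d₁ * s) * Real.exp (Cw * (2 * d₁) * s) :=
          mul_le_mul_of_nonneg_left hyn (Real.exp_pos _).le
      _ = Real.exp (d₁ * s + Cw * (2 * d₁) * s) := by rw [Real.exp_add]
      _ ≤ _ := Real.exp_le_exp.2 (by rw [hC]; nlinarith)
  · intro L₁ hL₁ p hpL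
    obtain ⟨hp0, hpx⟩ := hL₁ p hpL
    have hv : p.2 • M.X p.1 ∈ M.Vw 0 := by
      have := M.X_mem p.1
      rw [hp0] at this
      exact Submodule.smul_mem _ _ this
    have hvn : M.nm (p.2 • M.X p.1) ≤ B.C * Real.exp (-(C * d₁ * s)) := by
      rw [map_smul_eq_mul, Real.norm_eq_abs]
      have h5 := M.X_le p.1
      have h6 := M.nm_nonneg (M.X p.1)
      calc |p.2| * M.nm (M.X p.1) ≤ (B.C * Real.exp (-(C * d₁ * s))) * 1 :=
            mul_le_mul hpx h5 h6 (by positivity)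
        _ = _ := mul_one _
    constructor
    · refine (hadg _ hv).2.trans ?_
      calc Real.exp (d₁ * s) * M.nm (p.2 • M.X p.1)
          ≤ Real.exp (d₁ * s) * (Real.exp (d₁ * s) * Real.exp (-(C * d₁ * s))) :=
            mul_le_mul_of_nonneg_left (hvn.trans (mul_le_mul_of_nonneg_right hs2
              (Real.exp_pos _).le)) (Real.exp_pos _).le
        _ = Real.exp (d₁ * s + (d₁ * s + -(C * d₁ * s))) := by rw [Real.exp_add, Real.exp_add]
        _ ≤ Real.exp 0 := Real.exp_le_exp.2 (by rw [hC]; nlinarith)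
        _ = 1 := Real.exp_zero
    · have e1 : (lp M L * g)⁻¹ = g⁻¹ * M.ex (-y₀) := by rw [mul_inv_rev, M.ex_neg, hye]
      have hny : -y₀ ∈ M.Vw 0 := Submodule.neg_mem _ hy₀
      rw [e1, map_mul]
      show M.nm (M.Ad g⁻¹ (M.Ad (M.ex (-y₀)) (p.2 • M.X p.1))) ≤ 1
      have h7 := M.Ad_ex_le (-y₀) (p.2 • M.X p.1)
      rw [M.nm_neg] at h7
      have h8 : (1 + M.nm y₀) ^ M.C0 ≤ Real.exp (M.C0 * (Cw * (2 * d₁) * s + 1)) :=
        rpow_exp_le (by linarith) (by nlinarith) (M.nm_nonneg _) hyn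
      refine (hadg _ (M.Ad_ex_Vw hny hv)).2.trans ?_
      calc Real.exp (d₁ * s) * M.nm (M.Ad (M.ex (-y₀)) (p.2 • M.X p.1))
          ≤ Real.exp (d₁ * s) * (M.C0 * Real.exp (M.C0 * (Cw * (2 * d₁) * s + 1)) *
              (B.C * Real.exp (-(C * d₁ * s)))) := by
            refine mul_le_mul_of_nonneg_left (h7.trans ?_) (Real.exp_pos _).le
            exact mul_le_mul (mul_le_mul_of_nonneg_left h8 (by linarith)) hvn
              (M.nm_nonneg _) (by positivity)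
        _ = Real.exp (d₁ * s) * (M.C0 * Real.exp M.C0 * B.C) *
              Real.exp (M.C0 * Cw * (2 * d₁) * s + -(C * d₁ * s)) := by
            have e2 : Real.exp (M.C0 * (Cw * (2 * d₁) * s + 1)) =
                Real.exp (M.C0 * Cw * (2 * d₁) * s) * Real.exp M.C0 := by
              rw [← Real.exp_add]; congr 1; ring
            rw [e2, Real.exp_add]; ring
        _ ≤ Real.exp (d₁ * s) * Real.exp (d₁ * s) *
              Real.exp (M.C0 * Cw * (2 * d₁) * s + -(C * d₁ * s)) := by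
            gcongr
        _ = Real.exp (d₁ * s + d₁ * s + (M.C0 * Cw * (2 * d₁) * s + -(C * d₁ * s))) := by
            rw [← Real.exp_add, ← Real.exp_add]
        _ ≤ Real.exp 0 := Real.exp_le_exp.2 (by rw [hC]; nlinarith)
        _ = 1 := Real.exp_zero

end Vale.Agent.P188.H235
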