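import Vale.Agent.P188.H882.HS

/-!
Block QA8 of P188 (route A).
-/

namespace Vale.Agent.P188.H235

open Vale.Agent.P188.H882

section Transfer

variable {G G' : Type*} [Group G] [Group G']

lemma ZExt_comap (φ : G' →* G) {N B : Subgroup G} {t : G}
    (h : ZExt N B t) (hB : B ≤ φ.range) : ∃ t' : G', ZExt (N.comap φ) (B.comap φ) t' := by
  obtain ⟨t', ht'⟩ := hB h.mem
  refine ⟨t', ⟨Subgroup.comap_mono h.le, ?_, ?_, ?_, ?_, ?_⟩⟩
  · simpa [Subgroup.mem_comap, ht'] using h.mem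
  · intro g hg
    have := h.conj (φ g) hg
    simpa [Subgroup.mem_comap, ht'] using this
  · intro g hg
    have := h.conj' (φ g) hg
    simpa [Subgroup.mem_comap, ht'] using this
  · intro b hb
    obtain ⟨i, hi⟩ := h.gen (φ b) hb
    exact ⟨i, by simpa [Subgroup.mem_comap, ht'] using hi⟩
  · intro i hi
    exact h.free i (by simpa [Subgroup.mem_comap, ht'] using hi)

lemma ZC_comap (φ : G' →* G) {K : Subgroup G} :
    ∀ (l : ℕ) {B : Subgroup G}, ZC K l B → B ≤ φ.range → ZC (K.comap φ) l (B.comap φ)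
  | 0, B, h, _ => by
    have h' : B = K := h
    subst h'
    exact rfl
  | l + 1, B, h, hB => by
    obtain ⟨N, t, hZ, hN⟩ := h
    obtain ⟨t', ht'⟩ := ZExt_comap φ hZ hB
    exact ⟨N.comap φ, t', ht', ZC_comap φ l hN (hZ.le.trans hB)⟩

lemma ZExt_map (φ : G →* G') (hφ : Function.Injective φ) {N B : Subgroup G} {t : G}
    (h : ZExt N B t) : ZExt (N.map φ) (B.map φ) (φ t) := by
  refine ⟨Subgroup.map_mono h.le, ⟨t, h.mem, rfl⟩, ?_, ?_, ?_, ?_⟩
  · rintro _ ⟨g, hg, rfl⟩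
    exact ⟨t * g * t⁻¹, h.conj g hg, by simp⟩
  · rintro _ ⟨g, hg, rfl⟩
    exact ⟨t⁻¹ * g * t, h.conj' g hg, by simp⟩
  · rintro _ ⟨b, hb, rfl⟩
    obtain ⟨i, hi⟩ := h.gen b hb
    exact ⟨i, ⟨b * t ^ i, hi, by simp⟩⟩
  · rintro i ⟨x, hx, hxi⟩
    refine h.free i ?_
    have : x = t ^ i := hφ (by rw [hxi, map_zpow])
    rwa [this] at hx

lemma ZC_map (φ : G →* G') (hφ : Function.Injective φ) {K : Subgroup G} :
    ∀ (l : ℕ) {B : Subgroup G}, ZC K l B → ZC (K.map φ) l (B.map φ)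
  | 0, B, h => by
    have h' : B = K := h
    subst h'
    exact rfl
  | l + 1, B, h => by
    obtain ⟨N, t, hZ, hN⟩ := h
    exact ⟨N.map φ, φ t, ZExt_map φ hφ hZ, ZC_map φ hφ l hN⟩

lemma ZC_le {K : Subgroup G} : ∀ (l : ℕ) {B : Subgroup G}, ZC K l B → K ≤ B
  | 0, B, h => by
    have h' : B = K := h
    subst h'
    exact le_rfl
  | l + 1, B, h => by
    obtain ⟨N, t, hZ, hN⟩ := h
    exact (ZC_le l hN).trans hZ.le

end Transfer

section Core

variable {G : Type*} [Group G]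

/-- elements central modulo `K`. -/
def Zc (K : Subgroup G) [K.Normal] : Subgroup G :=
  (Subgroup.center (G ⧸ K)).comap (QuotientGroup.mk' K)

lemma mem_Zc {K : Subgroup G} [K.Normal] {z : G} :
    z ∈ Zc K ↔ ∀ q : G, q * z * q⁻¹ * z⁻¹ ∈ K := by
  unfold Zc
  rw [Subgroup.mem_comap, Subgroup.mem_center_iff]
  constructor
  · intro h q
    have h1 := h (q : G ⧸ K)
    rw [← QuotientGroup.eq_one_iff]
    have h2 : ((q * z * q⁻¹ * z⁻¹ : G) : G ⧸ K) =
        (q : G ⧸ K) * (z : G ⧸ K) * (q : G ⧸ K)⁻¹ * (z : G ⧸ K)⁻¹ := rfl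
    rw [h2]
    have h3 : (q : G ⧸ K) * (z : G ⧸ K) = (z : G ⧸ K) * (q : G ⧸ K) := h1
    rw [h3]
    group
  · intro h g
    obtain ⟨q, rfl⟩ := QuotientGroup.mk_surjective g
    have h1 := h q
    rw [← QuotientGroup.eq_one_iff] at h1
    have h2 : ((q * z * q⁻¹ * z⁻¹ : G) : G ⧸ K) =
        (q : G ⧸ K) * (z : G ⧸ K) * (q : G ⧸ K)⁻¹ * (z : G ⧸ K)⁻¹ := rfl
    rw [h2] at h1
    show (q : G ⧸ K) * (z : G ⧸ K) = (z : G ⧸ K) * (q : G ⧸ K)
    have h3 : (q : G ⧸ K) * (z : G ⧸ K) * (q : G ⧸ K)⁻¹ = (z : G ⧸ K) := by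
      rwa [mul_inv_eq_one] at h1
    rwa [mul_inv_eq_iff_eq_mul] at h3

lemma normal_of_le_Zc {K : Subgroup G} [K.Normal] {B : Subgroup G} (h1 : K ≤ B)
    (h2 : B ≤ Zc K) : B.Normal := by
  refine ⟨fun n hn g => ?_⟩
  have h3 := (mem_Zc.1 (h2 hn)) g
  have h4 : g * n * g⁻¹ = (g * n * g⁻¹ * n⁻¹) * n := by group
  rw [h4]
  exact B.mul_mem (h1 h3) hn

lemma pow_mem_Zc {K K' : Subgroup G} [K.Normal]
    (H1 : ∀ p x, x ∈ K' → p * x * p⁻¹ * x⁻¹ ∈ K) (H2 : ∀ p q : G, p * q * p⁻¹ * q⁻¹ ∈ K')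
    {e : ℕ} (H3 : ∀ x ∈ K', x ^ e ∈ K) (p : G) : p ^ e ∈ Zc K := by
  rw [mem_Zc]
  intro q
  rw [← QuotientGroup.eq_one_iff]
  set a : G ⧸ K := (q : G ⧸ K) with ha
  set b : G ⧸ K := (p : G ⧸ K) with hb
  have h0 : ((q * p ^ e * q⁻¹ * (p ^ e)⁻¹ : G) : G ⧸ K) = a * b ^ e * a⁻¹ * (b ^ e)⁻¹ := rfl
  rw [h0]
  set c : G ⧸ K := a * b * a⁻¹ * b⁻¹ with hc
  have hc' : c = ((q * p * q⁻¹ * p⁻¹ : G) : G ⧸ K) := rfl
  have hcK : q * p * q⁻¹ * p⁻¹ ∈ K' := H2 q p
  have hce : c ^ e = 1 := by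
    rw [hc']
    have := H3 _ hcK
    rw [← QuotientGroup.eq_one_iff] at this
    exact this
  have hcb : Commute c b := by
    have h := H1 p _ hcK
    rw [← QuotientGroup.eq_one_iff] at h
    have h2 : b * c * b⁻¹ * c⁻¹ = 1 := h
    have h3 : b * c * b⁻¹ = c := by rwa [mul_inv_eq_one] at h2
    rw [mul_inv_eq_iff_eq_mul] at h3
    exact h3.symm
  have h5 : a * b * a⁻¹ = c * b := by rw [hc]; group
  have h6 : a * b ^ e * a⁻¹ = (c * b) ^ e := by
    rw [← h5, conj_pow]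
  rw [h6, hcb.mul_pow, hce]
  simp

theorem core {K K' : Subgroup G} [K.Normal] (hK : K ≤ K')
    (H0 : K.relIndex K' ≠ 0)
    (H1 : ∀ p x, x ∈ K' → p * x * p⁻¹ * x⁻¹ ∈ K) (H2 : ∀ p q : G, p * q * p⁻¹ * q⁻¹ ∈ K')
    {e : ℕ} (he : e ≠ 0) (H3 : ∀ x ∈ K', x ^ e ∈ K) :
    ∀ (k : ℕ) (f : G →* Multiplicative (Fin k → ℤ)) (B : Subgroup G), B ⊓ f.ker = K' →
      ∃ (l : ℕ) (B₀ : Subgroup G), B₀ ≤ B ∧ B₀ ≤ Zc K ∧ B₀ ⊓ K' = K ∧ B₀.relIndex B ≠ 0 ∧
        ZC K l B₀ := by
  intro k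
  induction k with
  | zero =>
    intro f B hB
    have hker : f.ker = ⊤ := by
      rw [eq_top_iff]
      intro x _
      rw [MonoidHom.mem_ker]
      exact Subsingleton.elim _ _
    rw [hker, inf_top_eq] at hB
    subst hB
    refine ⟨0, K, hK, ?_, inf_eq_left.2 hK, H0, rfl⟩
    intro x hx
    rw [mem_Zc]
    intro q
    exact H1 q x (hK hx)
  | succ k ih =>
    intro f B hB
    -- last coordinate and the rest
    let g : G →* Multiplicative ℤ :=
      (AddMonoidHom.toMultiplicative (Pi.evalAddMonoidHom (fun _ : Fin (k + 1) => ℤ) 0)).comp f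
    let r : (Fin (k + 1) → ℤ) →+ (Fin k → ℤ) :=
      { toFun := fun v i => v i.succ, map_zero' := rfl, map_add' := fun _ _ => rfl }
    let f' : G →* Multiplicative (Fin k → ℤ) := (AddMonoidHom.toMultiplicative r).comp f
    have hker : g.ker ⊓ f'.ker = f.ker := by
      ext x
      rw [Subgroup.mem_inf, MonoidHom.mem_ker, MonoidHom.mem_ker, MonoidHom.mem_ker]
      constructor
      · rintro ⟨h1, h2⟩
        have h1' : (f x).toAdd 0 = 0 := h1
        have h2' : (fun i : Fin k => (f x).toAdd i.succ) = 0 := h2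
        have : (f x).toAdd = 0 := by
          funext i
          refine Fin.cases h1' (fun j => ?_) i
          exact congrFun h2' j
        exact this
      · intro h
        have h' : (f x).toAdd = 0 := h
        refine ⟨?_, ?_⟩
        · show (f x).toAdd 0 = 0
          rw [h']; rfl
        · show (fun i : Fin k => (f x).toAdd i.succ) = 0
          rw [h']; rfl
    set N : Subgroup G := B ⊓ g.ker with hN
    have hNK : N ⊓ f'.ker = K' := by rw [hN, inf_assoc, hker, hB]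
    obtain ⟨l, N₀, hN₀N, hN₀Z, hN₀K, hN₀i, hN₀C⟩ := ih f' N hNK
    have hKN₀ : K ≤ N₀ := ZC_le l hN₀C
    have hK'N : K' ≤ N := hNK ▸ inf_le_left
    -- generator of the image
    obtain ⟨y, hy⟩ : ∃ y : Multiplicative ℤ, B.map g = Subgroup.zpowers y := by
      have hc : IsCyclic (B.map g) := inferInstance
      obtain ⟨y, hy⟩ := (Subgroup.isCyclic_iff_exists_zpowers_eq_top (B.map g)).1 hc
      exact ⟨y, hy.symm⟩
    obtain ⟨t, htB, hty⟩ : y ∈ B.map g := by rw [hy]; exact Subgroup.mem_zpowers y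
    by_cases hy1 : y = 1
    · have hBN : N = B := by
        rw [hN, inf_eq_left]
        intro b hb
        have : g b ∈ B.map g := ⟨b, hb, rfl⟩
        rw [hy, hy1, Subgroup.zpowers_one_eq_bot, Subgroup.mem_bot] at this
        exact this
      exact ⟨l, N₀, hN₀N.trans inf_le_left, hN₀Z, hN₀K, by rw [← hBN]; exact hN₀i, hN₀C⟩
    have hfree : ∀ i : ℤ, (g t) ^ i = 1 → i = 0 := by
      intro i hi
      rw [hty] at hi
      by_contra hne
      apply hy1
      have h1 : i * y.toAdd = 0 := by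
        have := congrArg Multiplicative.toAdd hi
        simpa using this
      rcases mul_eq_zero.1 h1 with h | h
      · exact absurd h hne
      · exact h
    set s : G := t ^ e with hs
    have hsZ : s ∈ Zc K := pow_mem_Zc H1 H2 H3 t
    have hsfree : ∀ i : ℤ, g (s ^ i) = 1 → i = 0 := by
      intro i hi
      have h1 : (g t) ^ ((e : ℤ) * i) = 1 := by
        rw [zpow_mul, zpow_natCast, ← map_pow, ← map_zpow]
        exact hi
      have h2 := hfree _ h1
      rcases mul_eq_zero.1 h2 with h | h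
      · exact absurd (by exact_mod_cast h) he
      · exact h
    have hN₀n : N₀.Normal := normal_of_le_Zc hKN₀ hN₀Z
    set B₀ : Subgroup G := N₀ ⊔ Subgroup.zpowers s with hB₀
    have hmem : ∀ b ∈ B₀, ∃ i : ℤ, b * s ^ i ∈ N₀ := by
      intro b hb
      rw [hB₀, Subgroup.mem_sup_of_normal_left] at hb
      obtain ⟨n, hn, w, ⟨i, rfl⟩, rfl⟩ := hb
      refine ⟨-i, ?_⟩
      simpa [mul_assoc] using hn
    have hB₀Z : B₀ ≤ Zc K := sup_le hN₀Z (by rw [Subgroup.zpowers_le]; exact hsZ)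
    have hB₀B : B₀ ≤ B := sup_le (hN₀N.trans inf_le_left)
      (by rw [Subgroup.zpowers_le]; exact B.pow_mem htB e)
    have hKB₀ : K ≤ B₀ := hKN₀.trans le_sup_left
    have hB₀n : B₀.Normal := normal_of_le_Zc hKB₀ hB₀Z
    have hZE : ZExt N₀ B₀ s := by
      refine ⟨le_sup_left, ?_, ?_, ?_, hmem, ?_⟩
      · exact (le_sup_right : Subgroup.zpowers s ≤ B₀) (Subgroup.mem_zpowers s)
      · intro x hx
        exact hN₀n.conj_mem x hx s
      · intro x hx
        simpa using hN₀n.conj_mem x hx s⁻¹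
      · intro i hi
        exact hsfree i (hN₀N hi).2
    refine ⟨l + 1, B₀, hB₀B, hB₀Z, ?_, ?_, ⟨N₀, s, hZE, hN₀C⟩⟩
    · apply le_antisymm
      · rintro x ⟨hx1, hx2⟩
        obtain ⟨i, hi⟩ := hmem x hx1
        have hxg : g x = 1 := (hK'N hx2).2
        have h1 : g (x * s ^ i) = 1 := (hN₀N hi).2
        rw [map_mul, hxg, one_mul] at h1
        have h2 := hsfree i h1
        rw [h2, zpow_zero, mul_one] at hi
        rw [← hN₀K]
        exact ⟨hi, hx2⟩
      · exact le_inf hKB₀ hK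
    · -- the index
      have hi1 : B₀.relIndex N ≠ 0 := by
        intro h0
        exact hN₀i (Nat.eq_zero_of_zero_dvd (h0 ▸ Subgroup.relIndex_dvd_of_le_left N
          (le_sup_left : N₀ ≤ B₀)))
      have hi2 : B₀.relIndex (B₀ ⊔ N) ≠ 0 := by
        rw [Subgroup.relIndex_sup_left]
        exact hi1
      have hi3 : (B₀ ⊔ N).relIndex B ≠ 0 := by
        set Z1 : Subgroup (Multiplicative ℤ) := Subgroup.zpowers (g s) with hZ1
        have hfin : Z1.index ≠ 0 := by
          have hne : (g s).toAdd ≠ 0 := by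
            intro h0
            have : g (s ^ (1 : ℤ)) = 1 := by
              rw [zpow_one]
              exact h0
            exact one_ne_zero (hsfree 1 this)
          have : Z1.index = (g s).toAdd.natAbs := by
            have h1 : Z1 = AddSubgroup.toSubgroup (AddSubgroup.zmultiples (g s).toAdd) := by
              rw [hZ1]
              ext z
              simp only [Subgroup.mem_zpowers_iff]
              constructor
              · rintro ⟨i, hi⟩
                exact ⟨i, by rw [← hi]; rfl⟩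
              · rintro ⟨i, hi⟩
                exact ⟨i, hi⟩
            rw [h1]
            exact Int.index_zmultiples _
          rw [this]
          exact Int.natAbs_ne_zero.2 hne
        have hle : B ⊓ Z1.comap g ≤ B₀ ⊔ N := by
          rintro x ⟨hxB, hxZ⟩
          obtain ⟨i, hi⟩ := hxZ
          have h1 : x * s ^ (-i) ∈ N := by
            refine ⟨B.mul_mem hxB (B.zpow_mem (B.pow_mem htB e) _), ?_⟩
            show g (x * s ^ (-i)) = 1
            rw [map_mul, map_zpow, ← show (g s) ^ i = g x from hi]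
            simp
          have h2 : x = x * s ^ (-i) * s ^ i := by simp [mul_assoc]
          rw [h2]
          exact Subgroup.mul_mem _ ((le_sup_right : N ≤ B₀ ⊔ N) h1)
            ((le_sup_left : B₀ ≤ B₀ ⊔ N) ((le_sup_right : Subgroup.zpowers s ≤ B₀)
              (Subgroup.zpow_mem _ (Subgroup.mem_zpowers s) i)))
        have hr : (B ⊓ Z1.comap g).relIndex B ≠ 0 := by
          rw [Subgroup.inf_relIndex_left]
          intro h0
          apply hfin
          have h4 := Subgroup.relIndex_comap (H := Z1) g B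
          rw [h0] at h4
          exact Nat.eq_zero_of_zero_dvd (h4 ▸ Subgroup.relIndex_dvd_index_of_normal Z1 (B.map g))
        intro h0
        exact hr (Nat.eq_zero_of_zero_dvd (h0 ▸ Subgroup.relIndex_dvd_of_le_left B hle))
      exact Subgroup.relIndex_ne_zero_trans hi2 hi3

end Core

theorem qa8 : QA8 := by
  intro P _ K K' _ _ hKK' hfin k f hf
  -- the centralizer of `K' / K` modulo `K`
  let F : Subgroup (P ⧸ K) := K'.map (QuotientGroup.mk' K)
  have hFn : F.Normal := Subgroup.Normal.map inferInstance _ (QuotientGroup.mk'_surjective K)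
  have hFfin : Finite F := by
    have h1 : Finite (K' ⧸ K.subgroupOf K') := Subgroup.finite_quotient_of_finiteIndex
    let φ : K' ⧸ K.subgroupOf K' → F := Quotient.lift (fun x : K' =>
      (⟨((x : P) : P ⧸ K), ⟨x, x.2, rfl⟩⟩ : F)) (by
        intro a b hab
        have hab' : a⁻¹ * b ∈ K.subgroupOf K' := QuotientGroup.leftRel_apply.1 hab
        apply Subtype.ext
        exact QuotientGroup.eq.2 hab')
    apply Finite.of_surjective φ
    rintro ⟨_, x, hx, rfl⟩
    exact ⟨Quotient.mk _ (⟨x, hx⟩ : K'), rfl⟩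
  let ψ : P →* MulAut F := (MulAut.conjNormal (H := F)).comp (QuotientGroup.mk' K)
  have hMA : Finite (MulAut F) := inferInstance
  set C : Subgroup P := ψ.ker with hC
  have hCfin : C.FiniteIndex := by
    rw [hC]
    infer_instance
  have hCmem : ∀ p ∈ C, ∀ x ∈ K', p * x * p⁻¹ * x⁻¹ ∈ K := by
    intro p hp x hx
    have h1 : ψ p = 1 := hp
    have h2 := congrArg (fun (a : MulAut F) => ((a ⟨((x : P) : P ⧸ K), ⟨x, hx, rfl⟩⟩ : F) : P ⧸ K)) h1
    have h3 : ((p : P ⧸ K)) * (x : P ⧸ K) * (p : P ⧸ K)⁻¹ = (x : P ⧸ K) := h2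
    rw [← QuotientGroup.eq_one_iff]
    show ((p : P ⧸ K)) * (x : P ⧸ K) * (p : P ⧸ K)⁻¹ * (x : P ⧸ K)⁻¹ = 1
    rw [h3, mul_inv_cancel]
  have hKC : K ≤ C := by
    intro p hp
    show ψ p = 1
    have : (p : P ⧸ K) = 1 := (QuotientGroup.eq_one_iff p).2 hp
    show MulAut.conjNormal (H := F) (p : P ⧸ K) = 1
    rw [this, map_one]
  -- the data in `C`
  set K₁ : Subgroup C := K.subgroupOf C with hK₁
  set K₁' : Subgroup C := K'.subgroupOf C with hK₁'
  set f₁ : C →* Multiplicative (Fin k → ℤ) := f.comp C.subtype with hf₁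
  have hK₁n : K₁.Normal := inferInstance
  have hle : K₁ ≤ K₁' := fun x hx => hKK' hx
  have H0 : K₁.relIndex K₁' ≠ 0 := by
    have h1 : K.relIndex K' ≠ 0 := hfin.index_ne_zero
    have h2 : K₁.relIndex K₁' = K.relIndex (K₁'.map C.subtype) := by
      rw [hK₁]
      exact Subgroup.relIndex_comap (H := K) C.subtype K₁'
    rw [h2]
    have h3 : K₁'.map C.subtype ≤ K' := by
      rintro _ ⟨x, hx, rfl⟩
      exact hx
    exact fun h0 => h1 (Subgroup.relIndex_eq_zero_of_le_right h3 h0)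
  have H1 : ∀ p x : C, x ∈ K₁' → p * x * p⁻¹ * x⁻¹ ∈ K₁ := by
    intro p x hx
    exact hCmem p p.2 x hx
  have hkerf : f₁.ker = K₁' := by
    ext x
    rw [MonoidHom.mem_ker]
    show f x = 1 ↔ (x : P) ∈ K'
    rw [← hf, MonoidHom.mem_ker]
  have H2 : ∀ p q : C, p * q * p⁻¹ * q⁻¹ ∈ K₁' := by
    intro p q
    rw [← hkerf, MonoidHom.mem_ker]
    simp only [map_mul, map_inv]
    rw [mul_comm (f₁ p) (f₁ q)]
    group
  obtain ⟨e, he, H3⟩ : ∃ e : ℕ, e ≠ 0 ∧ ∀ x ∈ K₁', x ^ e ∈ K₁ := by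
    refine ⟨Nat.card F, Nat.card_pos.ne', ?_⟩
    intro x hx
    have h1 : (⟨((x : P) : P ⧸ K), ⟨x, hx, rfl⟩⟩ : F) ^ Nat.card F = 1 := pow_card_eq_one'
    have h2 := congrArg (Subtype.val) h1
    have h3 : (((x : P) ^ Nat.card F : P) : P ⧸ K) = 1 := h2
    rw [QuotientGroup.eq_one_iff] at h3
    exact h3
  obtain ⟨l, B₀, -, hBZ, hBK, hBi, hBC⟩ := core hle H0 H1 H2 he H3 k f₁ ⊤
    (by rw [top_inf_eq, hkerf])
  have hKmap : K₁.map C.subtype = K := by
    rw [hK₁, Subgroup.subgroupOf_map_subtype, inf_eq_left.2 hKC]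
  refine ⟨l, B₀.map C.subtype, ?_, ?_, ?_, ?_⟩
  · refine ⟨?_⟩
    rw [Subgroup.index_map_subtype]
    refine mul_ne_zero ?_ hCfin.index_ne_zero
    rwa [Subgroup.relIndex_top_right] at hBi
  · apply le_antisymm
    · rintro _ ⟨⟨x, hx, rfl⟩, hx2⟩
      have : x ∈ B₀ ⊓ K₁' := ⟨hx, hx2⟩
      rw [hBK] at this
      exact this
    · intro x hx
      refine ⟨⟨⟨x, hKC hx⟩, ?_, rfl⟩, hKK' hx⟩
      have : (⟨x, hKC hx⟩ : C) ∈ K₁ := hx
      rw [← hBK] at this
      exact this.1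
  · rintro ⟨_, a, ha, rfl⟩ ⟨_, b, hb, rfl⟩
    have h1 := mem_Zc.1 (hBZ hb) a
    exact h1
  · have h1 := ZC_map C.subtype C.subtype_injective l hBC
    rw [hKmap] at h1
    have h2 := ZC_comap (B₀.map C.subtype).subtype l h1
      (by rw [Subgroup.range_subtype])
    have h3 : (B₀.map C.subtype).comap (B₀.map C.subtype).subtype = ⊤ := by
      rw [eq_top_iff]
      intro x _
      exact x.2
    rw [h3] at h2
    exact h2

end Vale.Agent.P188.H235
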