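import Vale.Agent.P188.H235.EBox

/-!
# P188, route A, block hinput: splitting off the neutral letters
-/

set_option linter.all false

open MeasureTheory Set Filter Topology
open scoped ENNReal
open Vale.Agent.P188.H530 (hgt)
open Vale.Agent.P188.Z1

namespace Vale.Agent.P188.H235

variable {S : Type} [Group S] [MeasurableSpace S] {Γ : Type} [Group Γ]
  {V : Type} [AddCommGroup V] [Module ℝ V] {k : ℕ} {M : RModel S Γ V k}

/-- product of letters -/
def lp (M : RModel S Γ V k) (L : List (M.ι × ℝ)) : S :=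
  (L.map fun p => M.ex (p.2 • M.X p.1)).prod

theorem lp_nil : lp M [] = 1 := rfl

theorem lp_cons (p : M.ι × ℝ) (L : List (M.ι × ℝ)) :
    lp M (p :: L) = M.ex (p.2 • M.X p.1) * lp M L := by
  simp [lp]

theorem η_lp (L : List (M.ι × ℝ)) : M.η (lp M L) = 1 := by
  induction L with
  | nil => rw [lp_nil, map_one]
  | cons p L ih => rw [lp_cons, map_mul, M.η_ex, ih, one_mul]

theorem letter_mem_E {i : M.ι} (h : M.wt i ≠ 0) (x : ℝ) : M.ex (x • M.X i) ∈ M.E :=
  (M.mem_E _).2 ⟨_, M.e.smul_mem x (M.Vw_e _ h (M.X_mem i)), rfl⟩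

open Classical in
theorem split_list (L : List (M.ι × ℝ)) :
    ∃ e ∈ M.E, lp M L = e * lp M (L.filter fun p => M.wt p.1 = 0) := by
  induction L with
  | nil => exact ⟨1, M.E.one_mem, by simp [lp_nil]⟩
  | cons p L ih =>
    obtain ⟨e, he, h⟩ := ih
    by_cases hp : M.wt p.1 = 0
    · refine ⟨M.ex (p.2 • M.X p.1) * e * (M.ex (p.2 • M.X p.1))⁻¹,
        M.E_normal.conj_mem _ he _, ?_⟩
      rw [List.filter_cons_of_pos (by simpa using hp), lp_cons, lp_cons, h]
      group
    · refine ⟨M.ex (p.2 • M.X p.1) * e, M.E.mul_mem (letter_mem_E hp _) he, ?_⟩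
      rw [List.filter_cons_of_neg (by simpa using hp), lp_cons, h, mul_assoc]

theorem lp_mem (B : M.NatBox) {R : M.ι → ℝ} (hR : ∀ i, 0 ≤ R i) (L : List (M.ι × ℝ))
    (hL : ∀ p ∈ L, |p.2| ≤ B.C * R p.1) :
    lp M L ∈ B.Bx fun i => B.C ^ (L.length + 1) * R i := by
  have hC := B.one_le
  induction L with
  | nil =>
    rw [lp_nil]
    exact B.one _ fun i => by have := hR i; positivity
  | cons p L ih =>
    rw [lp_cons]
    have h1 : M.ex (p.2 • M.X p.1) ∈ B.Bx fun i => B.C * R i :=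
      B.letter _ (fun i => by have := hR i; positivity) _ _ (hL p (by simp))
    have h2 := ih fun q hq => hL q (by simp [hq])
    refine bx_mul B hR (by linarith) (by positivity) ?_ ?_ h1 h2
    · rw [List.length_cons]
      calc B.C * B.C = B.C ^ 2 := by ring
        _ ≤ B.C ^ (L.length + 1 + 1) := pow_le_pow_right₀ hC (by omega)
    · rw [List.length_cons]
      apply le_of_eq; ring

/-- **Splitting an element of a natural box**: `E`-part times a short word in the neutral letters. -/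
theorem split (B : M.NatBox) {R : M.ι → ℝ} (hR : ∀ i, 0 ≤ R i) {u : S} (hu : u ∈ B.Bx R) :
    ∃ e ∈ M.E, ∃ L : List (M.ι × ℝ), L.length ≤ B.m ∧
      (∀ p ∈ L, M.wt p.1 = 0 ∧ |p.2| ≤ B.C * R p.1) ∧ u = e * lp M L ∧
      lp M L ∈ (B.Bx fun i => B.C ^ (B.m + 1) * R i) ∧
      e ∈ B.Bx fun i => B.C ^ (B.m + 2) * R i := by
  classical
  have hC := B.one_le
  obtain ⟨x, hx, hux⟩ := B.gen R hR u hu
  set L0 : List (M.ι × ℝ) := List.ofFn fun t => (B.J t, x t) with hL0
  have h1 : u = lp M L0 := by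
    rw [hux, lp, hL0, List.map_ofFn]
    rfl
  obtain ⟨e, he, h2⟩ := split_list L0
  set L := L0.filter fun p => M.wt p.1 = 0 with hL
  have hlen : L.length ≤ B.m := by
    refine (List.length_filter_le _ _).trans ?_
    rw [hL0, List.length_ofFn]
  have hmem : ∀ p ∈ L, M.wt p.1 = 0 ∧ |p.2| ≤ B.C * R p.1 := by
    intro p hp
    rw [hL, List.mem_filter] at hp
    refine ⟨by simpa using hp.2, ?_⟩
    rw [hL0, List.mem_ofFn] at hp
    obtain ⟨t, rfl⟩ := hp.1
    exact hx t
  have hlp : lp M L ∈ B.Bx fun i => B.C ^ (B.m + 1) * R i := by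
    refine bx_mono B (fun i => by have := hR i; positivity) (fun i => ?_)
      (lp_mem B hR L fun p hp => (hmem p hp).2)
    exact mul_le_mul_of_nonneg_right (pow_le_pow_right₀ hC (by omega)) (hR i)
  refine ⟨e, he, L, hlen, hmem, by rw [h1, h2], hlp, ?_⟩
  have he2 : e = u * (lp M L)⁻¹ := by rw [h1, h2]; group
  rw [he2]
  have hu' : u ∈ B.Bx fun i => 1 * R i := by simpa using hu
  refine bx_mul B hR zero_le_one (by positivity) ?_ ?_ hu' (bx_inv B hlp)
  · rw [mul_one]
    calc B.C = B.C ^ 1 := by ring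
      _ ≤ B.C ^ (B.m + 2) := pow_le_pow_right₀ hC (by omega)
  · apply le_of_eq; ring

/-- Short words in the neutral letters are neutral exponentials. -/
theorem neutral_word (M : RModel S Γ V k) (n : ℕ) : ∃ C : ℝ, 1 ≤ C ∧ ∀ δ : ℝ, 0 < δ →
    ∀ᶠ s : ℝ in atTop, ∀ L : List (M.ι × ℝ), L.length ≤ n →
      (∀ p ∈ L, M.wt p.1 = 0 ∧ |p.2| ≤ Real.exp (δ * s)) →
      ∃ y ∈ M.Vw 0, M.ex y = lp M L ∧ M.nm y ≤ Real.exp (C * δ * s) := by
  induction n with
  | zero =>
    refine ⟨1, le_rfl, fun δ hδ => Filter.Eventually.of_forall fun s L hL hp => ?_⟩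
    have : L = [] := List.length_eq_zero_iff.1 (by omega)
    subst this
    refine ⟨0, Submodule.zero_mem _, by rw [M.ex_zero, lp_nil], ?_⟩
    rw [map_zero]
    positivity
  | succ n ih =>
    obtain ⟨C1, hC1, h1⟩ := ih
    obtain ⟨C2, hC2, h2⟩ := M.ev_mul0
    refine ⟨C2 * C1, by nlinarith, fun δ hδ => ?_⟩
    filter_upwards [h1 δ hδ, h2 (C1 * δ) (by positivity), eventually_ge_atTop (0 : ℝ)] with s h3 h4 hs
    intro L hL hp
    match L with
    | [] =>
      refine ⟨0, Submodule.zero_mem _, by rw [M.ex_zero, lp_nil], ?_⟩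
      rw [map_zero]
      positivity
    | p :: L =>
      rw [List.length_cons] at hL
      obtain ⟨y, hy, hye, hyn⟩ := h3 L (by omega) fun q hq => hp q (by simp [hq])
      obtain ⟨hp0, hpx⟩ := hp p (by simp)
      have hv : p.2 • M.X p.1 ∈ M.Vw 0 := by
        have := M.X_mem p.1
        rw [hp0] at this
        exact Submodule.smul_mem _ _ this
      have hvn : M.nm (p.2 • M.X p.1) ≤ Real.exp (C1 * δ * s) := by
        rw [map_smul_eq_mul, Real.norm_eq_abs]
        have h5 := M.X_le p.1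
        have h6 := M.nm_nonneg (M.X p.1)
        have h7 : Real.exp (δ * s) ≤ Real.exp (C1 * δ * s) := by
          apply Real.exp_le_exp.2
          have : 0 ≤ δ * s := by positivity
          nlinarith
        calc |p.2| * M.nm (M.X p.1) ≤ Real.exp (δ * s) * 1 :=
              mul_le_mul hpx h5 h6 (Real.exp_pos _).le
          _ ≤ _ := by rw [mul_one]; exact h7
      obtain ⟨u, hu, hue, hun⟩ := h4 _ hv y hy hvn hyn
      refine ⟨u, hu, by rw [hue, lp_cons, hye], hun.trans (le_of_eq ?_)⟩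
      congr 1; ring

/-- Length of a conjugate of a word in small letters. -/
theorem len_conj (g : S) (L : List (M.ι × ℝ)) (h : ∀ p ∈ L, M.nm (M.Ad g (p.2 • M.X p.1)) ≤ 1) :
    (M.l (g * lp M L * g⁻¹) : ℝ) ≤ L.length * (2 * M.C0) := by
  induction L with
  | nil =>
    rw [lp_nil, mul_one, mul_inv_cancel, M.len.one]
    simp
  | cons p L ih =>
    have h1 := ih fun q hq => h q (by simp [hq])
    have e : g * lp M (p :: L) * g⁻¹ = M.ex (M.Ad g (p.2 • M.X p.1)) * (g * lp M L * g⁻¹) := by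
      rw [lp_cons, M.ex_Ad]; group
    rw [e]
    have h2 : (M.l (M.ex (M.Ad g (p.2 • M.X p.1)) * (g * lp M L * g⁻¹)) : ℝ) ≤
        M.l (M.ex (M.Ad g (p.2 • M.X p.1))) + M.l (g * lp M L * g⁻¹) := by
      exact_mod_cast M.len.mul _ _
    have h3 := M.met_V (M.Ad g (p.2 • M.X p.1))
    have h4 := h p (by simp)
    have h5 := M.C0_pos
    have h6 : M.C0 * (1 + M.nm (M.Ad g (p.2 • M.X p.1))) ≤ 2 * M.C0 := by nlinarith
    rw [List.length_cons]
    push_cast
    linarith

end Vale.Agent.P188.H235
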